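import Vale.Agent.P100.H327.Core2
import Vale.Agent.P100.Bdl.B3

set_option autoImplicit false

/-!
P100: blow-up and the universal local bound for nonnegative solutions of
`-Δ u = a v^p`, `-Δ v = b u^q` on a ball.
-/

noncomputable section

open MeasureTheory Metric Set Filter Topology
open scoped ContDiff

namespace Vale.Agent.P100.H327

variable {n : ℕ}

/-- nonnegative `C²` solutions on the ball `B(x₀, R)` of the system with coefficients `a`, `b`
between `1/Λ` and `Λ`, with Lipschitz constant `Λ/R` -/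
structure LocSol (p q Λ R : ℝ) (x0 : Eu n) (a b u v : Eu n → ℝ) : Prop where
  cu : ContDiffOn ℝ 2 u (ball x0 R)
  cv : ContDiffOn ℝ 2 v (ball x0 R)
  nu : ∀ x ∈ ball x0 R, 0 ≤ u x
  nv : ∀ x ∈ ball x0 R, 0 ≤ v x
  ba : ∀ x ∈ ball x0 R, Λ⁻¹ ≤ a x ∧ a x ≤ Λ
  bb : ∀ x ∈ ball x0 R, Λ⁻¹ ≤ b x ∧ b x ≤ Λ
  la : ∀ x ∈ ball x0 R, ∀ y ∈ ball x0 R, |a x - a y| ≤ Λ * (‖x - y‖ / R)
  lb : ∀ x ∈ ball x0 R, ∀ y ∈ ball x0 R, |b x - b y| ≤ Λ * (‖x - y‖ / R)
  eu : ∀ x ∈ ball x0 R, -Laplacian.laplacian u x = a x * v x ^ p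
  ev : ∀ x ∈ ball x0 R, -Laplacian.laplacian v x = b x * u x ^ q

lemma lap_affine (s lam : ℝ) (u : Eu n → ℝ) (x y : Eu n) :
    Laplacian.laplacian (fun y => s * u (x + lam • y)) y =
      s * lam ^ 2 * Laplacian.laplacian u (x + lam • y) := by
  have h1 := Vale.Agent.P100.RM.laplacian_scale s lam (fun y => u (x + y)) y
  rw [h1]
  congr 1
  rw [InnerProductSpace.laplacian_eq_iteratedFDeriv_stdOrthonormalBasis,
    InnerProductSpace.laplacian_eq_iteratedFDeriv_stdOrthonormalBasis]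
  simp only [iteratedFDeriv_comp_add_left]

lemma contDiffOn_affine {s lam r : ℝ} {u : Eu n → ℝ} {O : Set (Eu n)} (hu : ContDiffOn ℝ 2 u O)
    {x : Eu n} (h : ∀ y ∈ ball (0 : Eu n) r, x + lam • y ∈ O) :
    ContDiffOn ℝ 2 (fun y => s * u (x + lam • y)) (ball 0 r) := by
  refine contDiffOn_const.mul (hu.comp ?_ h)
  exact (contDiff_const.add (contDiff_const_smul lam)).contDiffOn

/-- the exponents -/
lemma expo {p q : ℝ} (hpq : 1 < p * q) :
    2 * (p + 1) / (p * q - 1) + 2 = 2 * (q + 1) / (p * q - 1) * p ∧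
    2 * (q + 1) / (p * q - 1) + 2 = 2 * (p + 1) / (p * q - 1) * q := by
  have : p * q - 1 ≠ 0 := by linarith
  constructor
  · rw [div_add' _ _ _ this, div_mul_eq_mul_div, div_left_inj' this]
    ring
  · rw [div_add' _ _ _ this, div_mul_eq_mul_div, div_left_inj' this]
    ring

/-- the blow-up step -/
lemma blow {p q Λ R α β : ℝ} (hα : 0 < α) (hβ : 0 < β) (h1 : α + 2 = β * p) (h2 : β + 2 = α * q)
    (hΛ : 0 < Λ) (hR : 0 < R) {x0 : Eu n} {a b u v : Eu n → ℝ} (h : LocSol p q Λ R x0 a b u v)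
    {k : ℝ} (hk : 0 < k) (hbig : 4 * k < (u x0 ^ (1 / α) + v x0 ^ (1 / β)) * R) :
    ∃ w z a' b' : Eu n → ℝ,
      ContDiffOn ℝ 2 w (ball 0 k) ∧ ContDiffOn ℝ 2 z (ball 0 k) ∧
      (∀ y ∈ ball (0 : Eu n) k, 0 ≤ w y ∧ w y ≤ 2 ^ α + 2 ^ β) ∧
      (∀ y ∈ ball (0 : Eu n) k, 0 ≤ z y ∧ z y ≤ 2 ^ α + 2 ^ β) ∧
      (∀ y ∈ ball (0 : Eu n) k, Λ⁻¹ ≤ a' y ∧ a' y ≤ Λ) ∧
      (∀ y ∈ ball (0 : Eu n) k, Λ⁻¹ ≤ b' y ∧ b' y ≤ Λ) ∧
      (∀ y ∈ ball (0 : Eu n) k, |a' y - a' 0| ≤ Λ * (‖y‖ / k)) ∧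
      (∀ y ∈ ball (0 : Eu n) k, |b' y - b' 0| ≤ Λ * (‖y‖ / k)) ∧
      (∀ y ∈ ball (0 : Eu n) k, -Laplacian.laplacian w y = a' y * z y ^ p) ∧
      (∀ y ∈ ball (0 : Eu n) k, -Laplacian.laplacian z y = b' y * w y ^ q) ∧
      min ((1 / 2) ^ α) ((1 / 2) ^ β) ≤ w 0 + z 0 := by
  have hα1 : 0 < 1 / α := by positivity
  have hβ1 : 0 < 1 / β := by positivity
  set N : Eu n → ℝ := fun x => u x ^ (1 / α) + v x ^ (1 / β) with hN
  have hsub : closedBall x0 (R / 2) ⊆ ball x0 R := closedBall_subset_ball (by linarith)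
  have hNc : ContinuousOn N (closedBall x0 (R / 2)) := by
    refine ContinuousOn.add ?_ ?_
    · exact (h.cu.continuousOn.mono hsub).rpow_const fun _ _ => Or.inr hα1.le
    · exact (h.cv.continuousOn.mono hsub).rpow_const fun _ _ => Or.inr hβ1.le
  have hN0 : ∀ x ∈ ball x0 R, 0 ≤ N x := fun x hx =>
    add_nonneg (Real.rpow_nonneg (h.nu x hx) _) (Real.rpow_nonneg (h.nv x hx) _)
  have hGc : ContinuousOn (fun x => N x * (R / 2 - ‖x - x0‖)) (closedBall x0 (R / 2)) :=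
    hNc.mul (by fun_prop)
  obtain ⟨x1, hx1, hmax⟩ := (isCompact_closedBall x0 (R / 2)).exists_isMaxOn
    ⟨x0, mem_closedBall_self (by linarith)⟩ hGc
  have hmax0 : N x0 * (R / 2) ≤ N x1 * (R / 2 - ‖x1 - x0‖) := by
    have := hmax (mem_closedBall_self (by linarith : (0 : ℝ) ≤ R / 2))
    simpa using this
  have hGk : 2 * k < N x1 * (R / 2 - ‖x1 - x0‖) := by
    refine lt_of_lt_of_le ?_ hmax0
    have : 4 * k < N x0 * R := hbig
    linarith
  have hx1R : x1 ∈ ball x0 R := hsub hx1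
  have hNx1 : 0 < N x1 := by
    refine lt_of_le_of_ne (hN0 x1 hx1R) fun h0 => ?_
    rw [← h0, zero_mul] at hGk
    linarith
  have hx1n : ‖x1 - x0‖ ≤ R / 2 := by simpa [dist_eq_norm] using hx1
  set lam : ℝ := (N x1)⁻¹ with hlam
  have hlam0 : 0 < lam := inv_pos.2 hNx1
  have hkl : k * lam < (R / 2 - ‖x1 - x0‖) / 2 := by
    have h3 : 2 * k * lam < R / 2 - ‖x1 - x0‖ := by
      rw [hlam, ← div_eq_mul_inv, div_lt_iff₀ hNx1]
      linarith [mul_comm (N x1) (R / 2 - ‖x1 - x0‖)]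
    linarith
  have hin : ∀ y ∈ ball (0 : Eu n) k, ‖x1 + lam • y - x0‖ ≤ ‖x1 - x0‖ + lam * k := by
    intro y hy
    have hy' : ‖y‖ < k := by simpa using hy
    have h3 : x1 + lam • y - x0 = (x1 - x0) + lam • y := by abel
    rw [h3]
    refine (norm_add_le _ _).trans ?_
    rw [norm_smul, Real.norm_of_nonneg hlam0.le]
    have := mul_le_mul_of_nonneg_left hy'.le hlam0.le
    linarith
  have hinc : ∀ y ∈ ball (0 : Eu n) k, x1 + lam • y ∈ closedBall x0 (R / 2) := by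
    intro y hy
    rw [mem_closedBall, dist_eq_norm]
    have := hin y hy
    have h0 := norm_nonneg (x1 - x0)
    linarith [mul_comm k lam]
  have hinb : ∀ y ∈ ball (0 : Eu n) k, x1 + lam • y ∈ ball x0 R := fun y hy => hsub (hinc y hy)
  have hNy : ∀ y ∈ ball (0 : Eu n) k, N (x1 + lam • y) ≤ 2 * N x1 := by
    intro y hy
    have h3 : N (x1 + lam • y) * (R / 2 - ‖x1 + lam • y - x0‖) ≤
        N x1 * (R / 2 - ‖x1 - x0‖) := hmax (hinc y hy)
    have h4 := hin y hy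
    have h5 : (R / 2 - ‖x1 - x0‖) / 2 ≤ R / 2 - ‖x1 + lam • y - x0‖ := by
      linarith [mul_comm k lam]
    have h6 : 0 < (R / 2 - ‖x1 - x0‖) / 2 := by
      have : 0 < k * lam := by positivity
      linarith
    have h7 := mul_le_mul_of_nonneg_left h5 (hN0 _ (hinb y hy))
    have h8 : N (x1 + lam • y) * ((R / 2 - ‖x1 - x0‖) / 2) ≤
        (2 * N x1) * ((R / 2 - ‖x1 - x0‖) / 2) := by linarith
    exact le_of_mul_le_mul_right h8 h6
  have hlN : lam * N x1 = 1 := by rw [hlam]; exact inv_mul_cancel₀ hNx1.ne'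
  -- pointwise bounds
  have hpw : ∀ {γ s : ℝ}, 0 < γ → 0 ≤ s → (lam ^ γ * s) ^ (1 / γ) = lam * s ^ (1 / γ) := by
    intro γ s hγ hs
    rw [Real.mul_rpow (Real.rpow_nonneg hlam0.le _) hs, ← Real.rpow_mul hlam0.le,
      mul_one_div_cancel hγ.ne', Real.rpow_one]
  have hback : ∀ {γ s r : ℝ}, 0 < γ → 0 ≤ s → s ^ (1 / γ) ≤ r → s ≤ r ^ γ := by
    intro γ s r hγ hs hsr
    have h3 := Real.rpow_le_rpow (Real.rpow_nonneg hs _) hsr hγ.le
    rwa [← Real.rpow_mul hs, one_div_mul_cancel hγ.ne', Real.rpow_one] at h3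
  have h2α : (0 : ℝ) ≤ 2 ^ α := by positivity
  have h2β : (0 : ℝ) ≤ 2 ^ β := by positivity
  have h00 : (0 : Eu n) ∈ ball (0 : Eu n) k := mem_ball_self hk
  have hlR : lam * k ≤ R := by
    have h0 := norm_nonneg (x1 - x0)
    linarith [mul_comm k lam]
  have hco : ∀ {c : Eu n → ℝ}, (∀ x ∈ ball x0 R, ∀ y ∈ ball x0 R, |c x - c y| ≤ Λ * (‖x - y‖ / R)) →
      ∀ y ∈ ball (0 : Eu n) k, |c (x1 + lam • y) - c (x1 + lam • (0 : Eu n))| ≤ Λ * (‖y‖ / k) := by
    intro c hc y hy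
    refine (hc _ (hinb y hy) _ (hinb 0 h00)).trans (mul_le_mul_of_nonneg_left ?_ hΛ.le)
    have h3 : x1 + lam • y - (x1 + lam • (0 : Eu n)) = lam • y := by
      rw [smul_zero]; abel
    rw [h3, norm_smul, Real.norm_of_nonneg hlam0.le, div_le_div_iff₀ hR hk]
    have h4 := mul_le_mul_of_nonneg_left hlR (norm_nonneg y)
    linarith [mul_comm ‖y‖ R, mul_comm (lam * ‖y‖) k, mul_comm ‖y‖ (lam * k), mul_comm lam ‖y‖,
      mul_assoc lam ‖y‖ k, mul_assoc ‖y‖ lam k]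
  refine ⟨fun y => lam ^ α * u (x1 + lam • y), fun y => lam ^ β * v (x1 + lam • y),
    fun y => a (x1 + lam • y), fun y => b (x1 + lam • y),
    contDiffOn_affine h.cu hinb, contDiffOn_affine h.cv hinb, ?_, ?_,
    fun y hy => h.ba _ (hinb y hy), fun y hy => h.bb _ (hinb y hy), hco h.la, hco h.lb, ?_, ?_, ?_⟩
  · intro y hy
    have hu := h.nu _ (hinb y hy)
    have hv := Real.rpow_nonneg (h.nv _ (hinb y hy)) (1 / β)
    refine ⟨mul_nonneg (Real.rpow_nonneg hlam0.le _) hu, ?_⟩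
    have h3 : (lam ^ α * u (x1 + lam • y)) ^ (1 / α) ≤ 2 := by
      rw [hpw hα hu]
      have h4 : u (x1 + lam • y) ^ (1 / α) ≤ 2 * N x1 := by
        have := hNy y hy
        simp only [hN] at this ⊢
        linarith
      have := mul_le_mul_of_nonneg_left h4 hlam0.le
      linarith
    have := hback hα (mul_nonneg (Real.rpow_nonneg hlam0.le _) hu) h3
    linarith
  · intro y hy
    have hv := h.nv _ (hinb y hy)
    have hu := Real.rpow_nonneg (h.nu _ (hinb y hy)) (1 / α)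
    refine ⟨mul_nonneg (Real.rpow_nonneg hlam0.le _) hv, ?_⟩
    have h3 : (lam ^ β * v (x1 + lam • y)) ^ (1 / β) ≤ 2 := by
      rw [hpw hβ hv]
      have h4 : v (x1 + lam • y) ^ (1 / β) ≤ 2 * N x1 := by
        have := hNy y hy
        simp only [hN] at this ⊢
        linarith
      have := mul_le_mul_of_nonneg_left h4 hlam0.le
      linarith
    have := hback hβ (mul_nonneg (Real.rpow_nonneg hlam0.le _) hv) h3
    linarith
  · intro y hy
    rw [lap_affine]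
    have h3 := h.eu _ (hinb y hy)
    rw [Real.mul_rpow (Real.rpow_nonneg hlam0.le _) (h.nv _ (hinb y hy)), ← Real.rpow_mul hlam0.le,
      ← h1, Real.rpow_add hlam0, Real.rpow_two]
    linear_combination lam ^ α * lam ^ 2 * h3
  · intro y hy
    rw [lap_affine]
    have h3 := h.ev _ (hinb y hy)
    rw [Real.mul_rpow (Real.rpow_nonneg hlam0.le _) (h.nu _ (hinb y hy)), ← Real.rpow_mul hlam0.le,
      ← h2, Real.rpow_add hlam0, Real.rpow_two]
    linear_combination lam ^ β * lam ^ 2 * h3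
  · have hx : x1 + lam • (0 : Eu n) = x1 := by rw [smul_zero, add_zero]
    simp only [hx]
    have hu := h.nu _ hx1R
    have hv := h.nv _ hx1R
    have hw0 : 0 ≤ lam ^ α * u x1 := mul_nonneg (Real.rpow_nonneg hlam0.le _) hu
    have hz0 : 0 ≤ lam ^ β * v x1 := mul_nonneg (Real.rpow_nonneg hlam0.le _) hv
    have h3 : (lam ^ α * u x1) ^ (1 / α) + (lam ^ β * v x1) ^ (1 / β) = 1 := by
      rw [hpw hα hu, hpw hβ hv, ← mul_add]
      exact hlN
    have hfwd : ∀ {γ s : ℝ}, 0 < γ → 0 ≤ s → 1 / 2 ≤ s ^ (1 / γ) → (1 / 2 : ℝ) ^ γ ≤ s := by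
      intro γ s hγ hs hsr
      have h4 := Real.rpow_le_rpow (by norm_num) hsr hγ.le
      rwa [← Real.rpow_mul hs, one_div_mul_cancel hγ.ne', Real.rpow_one] at h4
    rcases le_or_gt (1 / 2) ((lam ^ α * u x1) ^ (1 / α)) with h4 | h4
    · have := hfwd hα hw0 h4
      exact (min_le_left _ _).trans (by linarith)
    · have h5 : 1 / 2 ≤ (lam ^ β * v x1) ^ (1 / β) := by linarith
      have := hfwd hβ hz0 h5
      exact (min_le_right _ _).trans (by linarith)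

end Vale.Agent.P100.H327
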