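import Vale.Agent.P100.H327.Blow

set_option autoImplicit false

/-!
P100: universal local bounds for nonnegative solutions of the Lane-Emden system with coefficients.
-/

noncomputable section

open MeasureTheory Metric Set Filter Topology
open scoped ContDiff

namespace Vale.Agent.P100.H327

variable {n : ℕ}

/-- the scale invariant bound -/
theorem nbound (hn : 2 ≤ n) {p q : ℝ} (hp : 0 < p) (hq : 0 < q) (hpq : 1 < p * q)
    (hsub : (n : ℝ) - 2 < n / (p + 1) + n / (q + 1)) {Λ : ℝ} (hΛ : 0 < Λ) {α β : ℝ} (hα : 0 < α)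
    (hβ : 0 < β) (h1 : α + 2 = β * p) (h2 : β + 2 = α * q) :
    ∃ K, 0 < K ∧ ∀ (x0 : Eu n) (R : ℝ), 0 < R → ∀ a b u v : Eu n → ℝ,
      LocSol p q Λ R x0 a b u v → (u x0 ^ (1 / α) + v x0 ^ (1 / β)) * R ≤ K := by
  by_contra hcon
  have hbad : ∀ K, 0 < K → ∃ (x0 : Eu n) (R : ℝ) (a b u v : Eu n → ℝ), 0 < R ∧
      LocSol p q Λ R x0 a b u v ∧ K < (u x0 ^ (1 / α) + v x0 ^ (1 / β)) * R := by
    intro K hK
    by_contra hno
    refine hcon ⟨K, hK, fun x0 R hR a b u v h => ?_⟩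
    by_contra hlt
    exact hno ⟨x0, R, a, b, u, v, hR, h, not_le.1 hlt⟩
  have hseq : ∀ k : ℕ, ∃ w z a' b' : Eu n → ℝ,
      ContDiffOn ℝ 2 w (ball 0 k) ∧ ContDiffOn ℝ 2 z (ball 0 k) ∧
      (∀ y ∈ ball (0 : Eu n) k, 0 ≤ w y ∧ w y ≤ 2 ^ α + 2 ^ β) ∧
      (∀ y ∈ ball (0 : Eu n) k, 0 ≤ z y ∧ z y ≤ 2 ^ α + 2 ^ β) ∧
      (∀ y ∈ ball (0 : Eu n) k, Λ⁻¹ ≤ a' y ∧ a' y ≤ Λ) ∧
      (∀ y ∈ ball (0 : Eu n) k, Λ⁻¹ ≤ b' y ∧ b' y ≤ Λ) ∧
      (∀ y ∈ ball (0 : Eu n) k, |a' y - a' 0| ≤ Λ * (‖y‖ / k)) ∧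
      (∀ y ∈ ball (0 : Eu n) k, |b' y - b' 0| ≤ Λ * (‖y‖ / k)) ∧
      (∀ y ∈ ball (0 : Eu n) k, -Laplacian.laplacian w y = a' y * z y ^ p) ∧
      (∀ y ∈ ball (0 : Eu n) k, -Laplacian.laplacian z y = b' y * w y ^ q) ∧
      (0 < k → min ((1 / 2) ^ α) ((1 / 2) ^ β) ≤ w 0 + z 0) := by
    intro k
    rcases Nat.eq_zero_or_pos k with hk | hk
    · have he : ball (0 : Eu n) (k : ℝ) = ∅ := by rw [hk]; simp
      rw [he]
      refine ⟨0, 0, 0, 0, contDiffOn_empty, contDiffOn_empty, ?_, ?_, ?_, ?_, ?_, ?_, ?_, ?_, ?_⟩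
      all_goals first
        | exact fun y hy => absurd hy (notMem_empty y)
        | exact fun h => absurd h (by omega)
    · have hk' : (0 : ℝ) < k := by exact_mod_cast hk
      obtain ⟨x0, R, a, b, u, v, hR, h, hbig⟩ := hbad (4 * k) (by positivity)
      obtain ⟨w, z, a', b', e1, e2, e3, e4, e5, e6, e7, e8, e9, e10, e11⟩ :=
        blow hα hβ h1 h2 hΛ hR h hk' hbig
      exact ⟨w, z, a', b', e1, e2, e3, e4, e5, e6, e7, e8, e9, e10, fun _ => e11⟩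
  choose w z a b e1 e2 e3 e4 e5 e6 e7 e8 e9 e10 e11 using hseq
  have hM : (0 : ℝ) ≤ 2 ^ α + 2 ^ β := by positivity
  have hc : (0 : ℝ) < min ((1 / 2) ^ α) ((1 / 2) ^ β) := lt_min (by positivity) (by positivity)
  have hsol := limit_sol hp hq hpq hΛ hM hc e1 e2 e3 e4 e5 e6 e7 e8 e9 e10 e11
  refine Vale.Agent.P100.RM.no_solution_all hn hp hq (Or.inr (Or.inr ?_)) hsol
  simpa using hsub

lemma rpow_bound {s γ K R : ℝ} (hγ : 0 < γ) (hs : 0 ≤ s) (hK : 0 < K) (hR : 0 < R)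
    (h : s ^ (1 / γ) * R ≤ K) : s ≤ K ^ γ * R ^ (-γ) := by
  have h1 : s ^ (1 / γ) ≤ K / R := by rwa [le_div_iff₀ hR]
  have h2 := Real.rpow_le_rpow (Real.rpow_nonneg hs _) h1 hγ.le
  rw [← Real.rpow_mul hs, one_div_mul_cancel hγ.ne', Real.rpow_one] at h2
  refine h2.trans (le_of_eq ?_)
  rw [Real.div_rpow hK.le hR.le, Real.rpow_neg hR.le, div_eq_mul_inv]

/-- interior gradient estimate on the ball of radius `2` -/
lemma grad_two (n : ℕ) : ∃ C, 0 ≤ C ∧ ∀ (w : Eu n → ℝ) (M M' : ℝ), ContDiffOn ℝ 2 w (ball 0 2) →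
    (∀ y ∈ ball (0 : Eu n) 2, |w y| ≤ M) →
    (∀ y ∈ ball (0 : Eu n) 2, |Laplacian.laplacian w y| ≤ M') → ‖fderiv ℝ w 0‖ ≤ C * (M + M') := by
  obtain ⟨C, hC0, hC⟩ := lip_est n
  refine ⟨C, hC0, fun w M M' hw hM hM' => ?_⟩
  obtain ⟨W, hW, hWw⟩ := localize (x0 := (0 : Eu n)) (ρ' := 3 / 2) (ρ := 2) (by norm_num)
    (by norm_num) hw
  have h0 : (0 : Eu n) ∈ ball (0 : Eu n) (3 / 2) := mem_ball_self (by norm_num)
  have h02 : (0 : Eu n) ∈ ball (0 : Eu n) 2 := mem_ball_self (by norm_num)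
  have hM0 : 0 ≤ M := (abs_nonneg _).trans (hM 0 h02)
  have hM0' : 0 ≤ M' := (abs_nonneg _).trans (hM' 0 h02)
  rw [← (hWw 0 h0).fderiv_eq]
  refine (hW.differentiable (by norm_num) 0).hasFDerivAt.le_of_lip' (by positivity) ?_
  filter_upwards [ball_mem_nhds (0 : Eu n) (by norm_num : (0 : ℝ) < 1 / 4)] with y hy
  have hy' : ‖y‖ < 1 / 4 := by simpa using hy
  have hb : ∀ p : Eu n, p ∈ closedBall y 1 ∨ p ∈ closedBall (0 : Eu n) 1 →
      p ∈ ball (0 : Eu n) (3 / 2) := by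
    intro p hp
    rw [mem_ball_zero_iff]
    rcases hp with hp | hp
    · have h1 : ‖p - y‖ ≤ 1 := by simpa [dist_eq_norm] using hp
      have h2 := norm_add_le (p - y) y
      rw [sub_add_cancel] at h2
      linarith
    · have h1 : ‖p‖ ≤ 1 := by simpa using hp
      linarith
  have key := hC W hW y 0 M M' (fun p hp => ?_) fun p hp => ?_
  · rw [Real.norm_eq_abs]
    simpa [norm_sub_rev] using key
  · rw [(hWw p (hb p hp)).eq_of_nhds]
    exact hM p (ball_subset_ball (by norm_num) (hb p hp))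
  · rw [(InnerProductSpace.laplacian_congr_nhds (hWw p (hb p hp))).eq_of_nhds]
    exact hM' p (ball_subset_ball (by norm_num) (hb p hp))

lemma fderiv_affine (s lam : ℝ) (u : Eu n → ℝ) (x : Eu n) :
    fderiv ℝ (fun y => s * u (x + lam • y)) 0 = (s * lam) • fderiv ℝ u x := by
  have h1 := Vale.Agent.P100.RM.fderiv_scale s lam (fun y => u (x + y)) 0
  rw [h1, fderiv_comp_add_left, smul_zero, add_zero]

/-- restriction to smaller balls -/
lemma LocSol.restrict {p q Λ R : ℝ} (hΛ : 0 < Λ) (hR : 0 < R) {x0 : Eu n} {a b u v : Eu n → ℝ}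
    (h : LocSol p q Λ R x0 a b u v) {x : Eu n} (hx : x ∈ ball x0 (R / 2)) :
    LocSol p q Λ (R / 2) x a b u v := by
  have hs : ball x (R / 2) ⊆ ball x0 R := by
    refine ball_subset_ball' ?_
    have : dist x x0 < R / 2 := hx
    linarith
  have hl : ∀ {c : Eu n → ℝ}, (∀ x ∈ ball x0 R, ∀ y ∈ ball x0 R, |c x - c y| ≤ Λ * (‖x - y‖ / R)) →
      ∀ y ∈ ball x (R / 2), ∀ z ∈ ball x (R / 2), |c y - c z| ≤ Λ * (‖y - z‖ / (R / 2)) := by
    intro c hc y hy z hz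
    refine (hc y (hs hy) z (hs hz)).trans (mul_le_mul_of_nonneg_left ?_ hΛ.le)
    exact div_le_div_of_nonneg_left (norm_nonneg _) (by positivity) (by linarith)
  exact ⟨h.cu.mono hs, h.cv.mono hs, fun y hy => h.nu y (hs hy), fun y hy => h.nv y (hs hy),
    fun y hy => h.ba y (hs hy), fun y hy => h.bb y (hs hy), hl h.la, hl h.lb,
    fun y hy => h.eu y (hs hy), fun y hy => h.ev y (hs hy)⟩

end Vale.Agent.P100.H327
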