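import Vale.Agent.P100.H327.Lim

set_option autoImplicit false

/-!
P100: limits of almost-solutions of the Lane-Emden system on growing balls are positive entire
solutions.
-/

noncomputable section

open MeasureTheory Metric Set Filter Topology
open scoped ContDiff

namespace Vale.Agent.P100.H327

variable {n : ℕ}

/-- the limit of one equation -/
lemma half {p M Λ ai : ℝ} (hp : 0 < p) (hM : 0 ≤ M) (hΛ : 0 < Λ) {l : Filter ℕ} [l.NeBot]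
    {W Z a : ℕ → Eu n → ℝ} {U V : Eu n → ℝ}
    (hWc : ∀ k, ContDiff ℝ 2 (W k))
    (hWU : ∀ ρ ε : ℝ, 0 < ε → ∀ᶠ k in l, ∀ y, ‖y‖ ≤ ρ → |W k y - U y| ≤ ε)
    (hZV : ∀ ρ ε : ℝ, 0 < ε → ∀ᶠ k in l, ∀ y, ‖y‖ ≤ ρ → |Z k y - V y| ≤ ε)
    (hU : Continuous U) (hV : Continuous V) (hV0 : ∀ y, 0 ≤ V y ∧ V y ≤ M)
    (hZ0 : ∀ ρ : ℝ, ∀ᶠ k in l, ∀ y, ‖y‖ ≤ ρ → 0 ≤ Z k y ∧ Z k y ≤ M)
    (ha : Tendsto (fun k => a k 0) l (𝓝 ai)) (hai : |ai| ≤ Λ)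
    (hal : ∀ ρ ε : ℝ, 0 < ε → ∀ᶠ k in l, ∀ y, ‖y‖ ≤ ρ → |a k y - a k 0| ≤ ε)
    (heq : ∀ ρ : ℝ, ∀ᶠ k in l, ∀ y, ‖y‖ ≤ ρ →
      -Laplacian.laplacian (W k) y = a k y * Z k y ^ p) (x : Eu n) {r : ℝ} (hr : 0 ≤ r) :
    c0 n * U x = Av r U Ph x + ∫ t in (0 : ℝ)..r, t * Av t (fun y => ai * V y ^ p) Ps x := by
  have hF : Continuous fun y => ai * V y ^ p :=
    continuous_const.mul (hV.rpow_const fun _ => Or.inr hp.le)
  refine limit_rep hU hF (fun ρ ε hε => ?_) x hr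
  have hMp : 0 ≤ M ^ p := Real.rpow_nonneg hM p
  have hε1 : 0 < ε / (3 * (M ^ p + 1)) := by positivity
  have hε2 : 0 < ε / (3 * Λ) := by positivity
  obtain ⟨δ, hδ, hpow⟩ := pow_unif (M := M) hp hε2
  have ha' : ∀ᶠ k in l, |a k 0 - ai| ≤ ε / (3 * (M ^ p + 1)) := by
    have h1 : Tendsto (fun k => |a k 0 - ai|) l (𝓝 0) := by
      have := (ha.sub_const ai).abs
      simpa using this
    exact h1.eventually (ge_mem_nhds hε1)
  obtain ⟨k, h1, h2, h3, h4, h5, h6⟩ := ((hWU ρ ε hε).and ((hZV ρ δ hδ).and ((hZ0 ρ).and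
    (ha'.and ((hal ρ _ hε1).and (heq ρ)))))).exists
  refine ⟨W k, hWc k, fun y hy => ⟨h1 y hy, ?_⟩⟩
  rw [h6 y hy]
  have hz := h3 y hy
  have e1 : |Z k y ^ p - V y ^ p| ≤ ε / (3 * Λ) :=
    hpow _ _ hz.1 hz.2 (hV0 y).1 (hV0 y).2 (h2 y hy)
  have e2 : 0 ≤ Z k y ^ p ∧ Z k y ^ p ≤ M ^ p + 1 := by
    refine ⟨Real.rpow_nonneg hz.1 p, ?_⟩
    have := Real.rpow_le_rpow hz.1 hz.2 hp.le
    linarith
  have e3 : a k y * Z k y ^ p - ai * V y ^ p =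
      (a k y - a k 0) * Z k y ^ p + (a k 0 - ai) * Z k y ^ p + ai * (Z k y ^ p - V y ^ p) := by
    ring
  have e4 : |(a k y - a k 0) * Z k y ^ p| ≤ ε / 3 := by
    rw [abs_mul, abs_of_nonneg e2.1]
    calc |a k y - a k 0| * Z k y ^ p ≤ ε / (3 * (M ^ p + 1)) * (M ^ p + 1) :=
          mul_le_mul (h5 y hy) e2.2 e2.1 hε1.le
      _ = ε / 3 := by field_simp
  have e5 : |(a k 0 - ai) * Z k y ^ p| ≤ ε / 3 := by
    rw [abs_mul, abs_of_nonneg e2.1]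
    calc |a k 0 - ai| * Z k y ^ p ≤ ε / (3 * (M ^ p + 1)) * (M ^ p + 1) :=
          mul_le_mul h4 e2.2 e2.1 hε1.le
      _ = ε / 3 := by field_simp
  have e6 : |ai * (Z k y ^ p - V y ^ p)| ≤ ε / 3 := by
    rw [abs_mul]
    calc |ai| * |Z k y ^ p - V y ^ p| ≤ Λ * (ε / (3 * Λ)) :=
          mul_le_mul hai e1 (abs_nonneg _) hΛ.le
      _ = ε / 3 := by field_simp
  rw [e3]
  refine (abs_add_le _ _).trans ?_
  have := abs_add_le ((a k y - a k 0) * Z k y ^ p) ((a k 0 - ai) * Z k y ^ p)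
  linarith

/-- one component: localisation, ultralimit, uniform convergence -/
lemma comp_limit {M M' : ℝ} (hM' : 0 ≤ M') {w : ℕ → Eu n → ℝ}
    (hwc : ∀ k : ℕ, ContDiffOn ℝ 2 (w k) (ball 0 k))
    (hw : ∀ k : ℕ, ∀ y ∈ ball (0 : Eu n) k, 0 ≤ w k y ∧ w k y ≤ M)
    (hl : ∀ k : ℕ, ∀ y ∈ ball (0 : Eu n) k, |Laplacian.laplacian (w k) y| ≤ M')
    (l : Ultrafilter ℕ) (hl0 : (l : Filter ℕ) ≤ atTop) :
    ∃ (W : ℕ → Eu n → ℝ) (U : Eu n → ℝ) (L : ℝ), (∀ k, ContDiff ℝ 2 (W k)) ∧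
      (∀ ρ : ℝ, ∀ᶠ k in (l : Filter ℕ), ∀ y, ‖y‖ ≤ ρ → W k y = w k y ∧
        Laplacian.laplacian (W k) y = Laplacian.laplacian (w k) y) ∧
      (∀ ρ ε : ℝ, 0 < ε → ∀ᶠ k in (l : Filter ℕ), ∀ y, ‖y‖ ≤ ρ → |W k y - U y| ≤ ε) ∧
      Continuous U ∧ (∀ y, 0 ≤ U y ∧ U y ≤ M) ∧ (∀ x y, |U x - U y| ≤ L * ‖y - x‖) ∧
      ∀ x, Tendsto (fun k => W k x) l (𝓝 (U x)) := by
  have hloc : ∀ k : ℕ, ∃ W : Eu n → ℝ, ContDiff ℝ 2 W ∧
      ∀ y ∈ ball (0 : Eu n) ((k : ℝ) / 2), W =ᶠ[𝓝 y] w k := by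
    intro k
    rcases Nat.eq_zero_or_pos k with hk | hk
    · refine ⟨fun _ => 0, contDiff_const, fun y hy => ?_⟩
      rw [hk] at hy
      simp at hy
    · have hk' : (0 : ℝ) < k := by exact_mod_cast hk
      exact localize (by linarith) (by linarith) (hwc k)
  choose W hWc hWw using hloc
  have hev : ∀ ρ : ℝ, ∀ᶠ k : ℕ in (l : Filter ℕ), ρ < (k : ℝ) / 2 := by
    intro ρ
    have h1 : Tendsto (fun k : ℕ => (k : ℝ) / 2) atTop atTop :=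
      tendsto_natCast_atTop_atTop.atTop_div_const two_pos
    exact (h1.eventually_gt_atTop ρ).filter_mono hl0
  have hWeq : ∀ ρ : ℝ, ∀ᶠ k in (l : Filter ℕ), ∀ y, ‖y‖ ≤ ρ → (W k y = w k y ∧
      Laplacian.laplacian (W k) y = Laplacian.laplacian (w k) y) ∧ y ∈ ball (0 : Eu n) k := by
    intro ρ
    filter_upwards [hev ρ] with k hk y hy
    have h1 : y ∈ ball (0 : Eu n) ((k : ℝ) / 2) := by simpa using hy.trans_lt hk
    have h2 := hWw k y h1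
    refine ⟨⟨h2.eq_of_nhds, (InnerProductSpace.laplacian_congr_nhds h2).eq_of_nhds⟩, ?_⟩
    have : (0 : ℝ) ≤ k := Nat.cast_nonneg k
    exact ball_subset_ball (by linarith) h1
  have hWb : ∀ x : Eu n, ∀ᶠ k in (l : Filter ℕ), 0 ≤ W k x ∧ W k x ≤ M := by
    intro x
    filter_upwards [hWeq ‖x‖] with k hk
    have h1 := hk x le_rfl
    rw [h1.1.1]
    exact hw k x h1.2
  have hlim : ∀ x : Eu n, ∃ u : ℝ, Tendsto (fun k => W k x) l (𝓝 u) := by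
    intro x
    refine exists_ulim (M := M) ?_
    filter_upwards [hWb x] with k hk
    rw [abs_of_nonneg hk.1]
    exact hk.2
  choose U hU using hlim
  have hM0 : 0 ≤ M := by
    obtain ⟨k, hk⟩ := (hWb 0).exists
    exact hk.1.trans hk.2
  obtain ⟨C, hC0, hC⟩ := lip_est n
  have hL0 : 0 ≤ C * (M + M') := by positivity
  have hLip : ∀ ρ : ℝ, ∀ᶠ k in (l : Filter ℕ), ∀ x y : Eu n, ‖x‖ ≤ ρ → ‖y‖ ≤ ρ →
      |W k x - W k y| ≤ C * (M + M') * ‖y - x‖ := by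
    intro ρ
    filter_upwards [hWeq (ρ + 1)] with k hk x y hx hy
    have hb : ∀ p : Eu n, p ∈ closedBall x 1 ∨ p ∈ closedBall y 1 → ‖p‖ ≤ ρ + 1 := by
      intro p hp
      rcases hp with hp | hp
      · have h1 : ‖p - x‖ ≤ 1 := by simpa [dist_eq_norm] using hp
        have h2 := norm_add_le (p - x) x
        rw [sub_add_cancel] at h2
        linarith
      · have h1 : ‖p - y‖ ≤ 1 := by simpa [dist_eq_norm] using hp
        have h2 := norm_add_le (p - y) y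
        rw [sub_add_cancel] at h2
        linarith
    refine hC (W k) (hWc k) x y M M' (fun p hp => ?_) fun p hp => ?_
    · have h1 := hk p (hb p hp)
      rw [h1.1.1]
      have h2 := hw k p h1.2
      rw [abs_of_nonneg h2.1]
      exact h2.2
    · have h1 := hk p (hb p hp)
      rw [h1.1.2]
      exact hl k p h1.2
  obtain ⟨hUL, hUu⟩ := unif_of_equi hL0 hU hLip
  refine ⟨W, U, C * (M + M'), hWc, ?_, hUu, ?_, ?_, hUL, hU⟩
  · intro ρ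
    filter_upwards [hWeq ρ] with k hk y hy using (hk y hy).1
  · have hlw : LipschitzWith (Real.toNNReal (C * (M + M'))) U := by
      refine LipschitzWith.of_dist_le_mul fun x y => ?_
      rw [Real.dist_eq, dist_eq_norm, Real.coe_toNNReal _ hL0, norm_sub_rev x y]
      exact hUL x y
    exact hlw.continuous
  · intro y
    exact ⟨ge_of_tendsto (hU y) ((hWb y).mono fun k hk => hk.1),
      le_of_tendsto (hU y) ((hWb y).mono fun k hk => hk.2)⟩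

lemma coeff_limit {Λ : ℝ} (hΛ : 0 < Λ) {a : ℕ → Eu n → ℝ}
    (ha : ∀ k : ℕ, ∀ y ∈ ball (0 : Eu n) k, Λ⁻¹ ≤ a k y ∧ a k y ≤ Λ)
    (hal : ∀ k : ℕ, ∀ y ∈ ball (0 : Eu n) k, |a k y - a k 0| ≤ Λ * (‖y‖ / k))
    (l : Ultrafilter ℕ) (hl0 : (l : Filter ℕ) ≤ atTop) :
    ∃ ai : ℝ, 0 < ai ∧ |ai| ≤ Λ ∧ Tendsto (fun k => a k 0) l (𝓝 ai) ∧
      ∀ ρ ε : ℝ, 0 < ε → ∀ᶠ k in (l : Filter ℕ), ∀ y, ‖y‖ ≤ ρ → |a k y - a k 0| ≤ ε := by
  have hpos : ∀ᶠ k : ℕ in (l : Filter ℕ), (0 : Eu n) ∈ ball (0 : Eu n) k := by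
    have : ∀ᶠ k : ℕ in atTop, (0 : Eu n) ∈ ball (0 : Eu n) k := by
      filter_upwards [eventually_gt_atTop 0] with k hk
      have hk' : (0 : ℝ) < k := by exact_mod_cast hk
      simpa using hk'
    exact this.filter_mono hl0
  have hb : ∀ᶠ k : ℕ in (l : Filter ℕ), Λ⁻¹ ≤ a k 0 ∧ a k 0 ≤ Λ := hpos.mono fun k hk => ha k 0 hk
  have hΛi : 0 < Λ⁻¹ := inv_pos.2 hΛ
  obtain ⟨ai, hai⟩ := exists_ulim (w := fun k => a k 0) (M := Λ) (l := l) (by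
    filter_upwards [hb] with k hk
    rw [abs_of_nonneg (hΛi.le.trans hk.1)]
    exact hk.2)
  have h1 : Λ⁻¹ ≤ ai := ge_of_tendsto hai (hb.mono fun k hk => hk.1)
  have h2 : ai ≤ Λ := le_of_tendsto hai (hb.mono fun k hk => hk.2)
  have h3 : 0 < ai := hΛi.trans_le h1
  refine ⟨ai, h3, by rwa [abs_of_pos h3], hai, fun ρ ε hε => ?_⟩
  have hev : ∀ᶠ k : ℕ in atTop, max ρ (Λ * ρ / ε) < (k : ℝ) :=
    tendsto_natCast_atTop_atTop.eventually_gt_atTop _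
  filter_upwards [hev.filter_mono hl0, (eventually_gt_atTop 0).filter_mono hl0] with k hk hk0 y hy
  have hk' : (0 : ℝ) < k := by exact_mod_cast hk0
  have h4 : ρ < k := (le_max_left _ _).trans_lt hk
  have h5 : Λ * ρ / ε < k := (le_max_right _ _).trans_lt hk
  refine (hal k y (by simpa using hy.trans_lt h4)).trans ?_
  rw [div_lt_iff₀ hε] at h5
  rw [← mul_div_assoc, div_le_iff₀ hk']
  have := mul_le_mul_of_nonneg_left hy hΛ.le
  nlinarith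

end Vale.Agent.P100.H327
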