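import Vale.Agent.P100.H327.Core
import Vale.Agent.P100.Defs

set_option autoImplicit false

/-!
P100: the limit of almost-solutions on growing balls is (after scaling) a positive entire solution
of the Lane-Emden system.
-/

noncomputable section

open MeasureTheory Metric Set Filter Topology
open scoped ContDiff

namespace Vale.Agent.P100.H327

variable {n : ℕ}

/-- constants are scaled away -/
lemma scale_sol {p q a b : ℝ} (hpq : 1 < p * q) (ha : 0 < a) (hb : 0 < b)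
    {U V : Eu n → ℝ} (hU : ContDiff ℝ 2 U) (hV : ContDiff ℝ 2 V) (pU : ∀ x, 0 < U x)
    (pV : ∀ x, 0 < V x) (eU : ∀ x, -Laplacian.laplacian U x = a * V x ^ p)
    (eV : ∀ x, -Laplacian.laplacian V x = b * U x ^ q) :
    ∃ u v : Eu n → ℝ, IsPositiveEntireSolution n p q 0 0 u v := by
  set s : ℝ := (a * b ^ p) ^ (1 / (p * q - 1)) with hs
  have hab : 0 < a * b ^ p := mul_pos ha (Real.rpow_pos_of_pos hb p)
  have hs0 : 0 < s := Real.rpow_pos_of_pos hab _
  set t : ℝ := s ^ q / b with ht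
  have ht0 : 0 < t := div_pos (Real.rpow_pos_of_pos hs0 q) hb
  have hpq0 : p * q - 1 ≠ 0 := by linarith
  have h1 : s ^ (p * q) = s * (a * b ^ p) := by
    have h2 : s ^ (p * q - 1) = a * b ^ p := by
      rw [hs, ← Real.rpow_mul hab.le, one_div, inv_mul_cancel₀ hpq0, Real.rpow_one]
    rw [← h2, ← Real.rpow_one_add' hs0.le (by linarith)]
    congr 1
    ring
  have h3 : t ^ p = s * a := by
    rw [ht, Real.div_rpow (Real.rpow_nonneg hs0.le q) hb.le, ← Real.rpow_mul hs0.le, mul_comm q p,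
      h1]
    have := (Real.rpow_pos_of_pos hb p).ne'
    field_simp
  have h4 : s ^ q = t * b := by
    rw [ht]
    field_simp
  have hl : ∀ (c : ℝ) {W : Eu n → ℝ}, ContDiff ℝ 2 W → ∀ x,
      Laplacian.laplacian (fun y => c * W y) x = c * Laplacian.laplacian W x := by
    intro c W hW x
    have := InnerProductSpace.laplacian_smul c (hW.contDiffAt (x := x))
    simpa [Pi.smul_def] using this
  refine ⟨fun x => s * U x, fun x => t * V x,
    { contDiffOn_u := (contDiff_const.mul hU).contDiffOn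
      contDiffOn_v := (contDiff_const.mul hV).contDiffOn
      continuous_u := continuous_const.mul hU.continuous
      continuous_v := continuous_const.mul hV.continuous
      pos_u := fun x => mul_pos hs0 (pU x)
      pos_v := fun x => mul_pos ht0 (pV x)
      eq_u := fun x _ => ?_
      eq_v := fun x _ => ?_ }⟩
  · rw [hl s hU, Real.rpow_zero, one_mul, Real.mul_rpow ht0.le (pV x).le, h3]
    have := eU x
    linear_combination s * this
  · rw [hl t hV, Real.rpow_zero, one_mul, Real.mul_rpow hs0.le (pU x).le, h4]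
    have := eV x
    linear_combination t * this

/-- the limit theorem -/
theorem limit_sol {p q M Λ c : ℝ} (hp : 0 < p) (hq : 0 < q) (hpq : 1 < p * q) (hΛ : 0 < Λ)
    (hM : 0 ≤ M) (hc : 0 < c) {w z a b : ℕ → Eu n → ℝ}
    (hwc : ∀ k : ℕ, ContDiffOn ℝ 2 (w k) (ball 0 k))
    (hzc : ∀ k : ℕ, ContDiffOn ℝ 2 (z k) (ball 0 k))
    (hw : ∀ k : ℕ, ∀ y ∈ ball (0 : Eu n) k, 0 ≤ w k y ∧ w k y ≤ M)
    (hz : ∀ k : ℕ, ∀ y ∈ ball (0 : Eu n) k, 0 ≤ z k y ∧ z k y ≤ M)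
    (ha : ∀ k : ℕ, ∀ y ∈ ball (0 : Eu n) k, Λ⁻¹ ≤ a k y ∧ a k y ≤ Λ)
    (hb : ∀ k : ℕ, ∀ y ∈ ball (0 : Eu n) k, Λ⁻¹ ≤ b k y ∧ b k y ≤ Λ)
    (hal : ∀ k : ℕ, ∀ y ∈ ball (0 : Eu n) k, |a k y - a k 0| ≤ Λ * (‖y‖ / k))
    (hbl : ∀ k : ℕ, ∀ y ∈ ball (0 : Eu n) k, |b k y - b k 0| ≤ Λ * (‖y‖ / k))
    (hew : ∀ k : ℕ, ∀ y ∈ ball (0 : Eu n) k, -Laplacian.laplacian (w k) y = a k y * z k y ^ p)
    (hez : ∀ k : ℕ, ∀ y ∈ ball (0 : Eu n) k, -Laplacian.laplacian (z k) y = b k y * w k y ^ q)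
    (h0 : ∀ k : ℕ, 0 < k → c ≤ w k 0 + z k 0) :
    ∃ u v : Eu n → ℝ, IsPositiveEntireSolution n p q 0 0 u v := by
  have hl0 : ((hyperfilter ℕ : Ultrafilter ℕ) : Filter ℕ) ≤ atTop := Nat.hyperfilter_le_atTop
  have hbnd : ∀ {r α s : ℝ}, 0 < r → 0 ≤ α → α ≤ Λ → 0 ≤ s → s ≤ M → |α * s ^ r| ≤ Λ * M ^ r := by
    intro r α s hr h1 h2 h3 h4
    rw [abs_of_nonneg (mul_nonneg h1 (Real.rpow_nonneg h3 r))]
    exact mul_le_mul h2 (Real.rpow_le_rpow h3 h4 hr.le) (Real.rpow_nonneg h3 r) hΛ.le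
  have hΛi : 0 < Λ⁻¹ := inv_pos.2 hΛ
  have hlw : ∀ k : ℕ, ∀ y ∈ ball (0 : Eu n) k, |Laplacian.laplacian (w k) y| ≤ Λ * M ^ p := by
    intro k y hy
    rw [← abs_neg, hew k y hy]
    exact hbnd hp (hΛi.le.trans (ha k y hy).1) (ha k y hy).2 (hz k y hy).1 (hz k y hy).2
  have hlz : ∀ k : ℕ, ∀ y ∈ ball (0 : Eu n) k, |Laplacian.laplacian (z k) y| ≤ Λ * M ^ q := by
    intro k y hy
    rw [← abs_neg, hez k y hy]
    exact hbnd hq (hΛi.le.trans (hb k y hy).1) (hb k y hy).2 (hw k y hy).1 (hw k y hy).2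
  obtain ⟨W, U, L1, hWc, hWw, hWU, hUc, hUb, hUL, hU⟩ := comp_limit
    (mul_nonneg hΛ.le (Real.rpow_nonneg hM p)) hwc hw hlw (hyperfilter ℕ) hl0
  obtain ⟨Z, V, L2, hZc, hZz, hZV, hVc, hVb, hVL, hV⟩ := comp_limit
    (mul_nonneg hΛ.le (Real.rpow_nonneg hM q)) hzc hz hlz (hyperfilter ℕ) hl0
  obtain ⟨ai, hai0, haiΛ, hai, hau⟩ := coeff_limit hΛ ha hal (hyperfilter ℕ) hl0
  obtain ⟨bi, hbi0, hbiΛ, hbi, hbu⟩ := coeff_limit hΛ hb hbl (hyperfilter ℕ) hl0
  have hin : ∀ ρ : ℝ, ∀ᶠ k : ℕ in ((hyperfilter ℕ : Ultrafilter ℕ) : Filter ℕ),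
      ∀ y : Eu n, ‖y‖ ≤ ρ → y ∈ ball (0 : Eu n) k := by
    intro ρ
    have hev : ∀ᶠ k : ℕ in atTop, ρ < (k : ℝ) :=
      tendsto_natCast_atTop_atTop.eventually_gt_atTop _
    filter_upwards [hev.filter_mono hl0] with k hk y hy
    simpa using hy.trans_lt hk
  have hr1 := fun x r hr => half (x := x) (r := r) hp hM hΛ hWc hWU hZV hUc hVc hVb
    (by
      intro ρ
      filter_upwards [hZz ρ, hin ρ] with k h1 h2 y hy
      rw [(h1 y hy).1]
      exact hz k y (h2 y hy)) hai haiΛ hau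
    (by
      intro ρ
      filter_upwards [hWw ρ, hZz ρ, hin ρ] with k h1 h3 h2 y hy
      rw [(h1 y hy).2, (h3 y hy).1]
      exact hew k y (h2 y hy)) hr
  have hr2 := fun x r hr => half (x := x) (r := r) hq hM hΛ hZc hZV hWU hVc hUc hUb
    (by
      intro ρ
      filter_upwards [hWw ρ, hin ρ] with k h1 h2 y hy
      rw [(h1 y hy).1]
      exact hw k y (h2 y hy)) hbi hbiΛ hbu
    (by
      intro ρ
      filter_upwards [hWw ρ, hZz ρ, hin ρ] with k h1 h3 h2 y hy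
      rw [(h3 y hy).2, (h1 y hy).1]
      exact hez k y (h2 y hy)) hr
  have hFc : Continuous fun y => ai * V y ^ p :=
    continuous_const.mul (hVc.rpow_const fun _ => Or.inr hp.le)
  have hGc : Continuous fun y => bi * U y ^ q :=
    continuous_const.mul (hUc.rpow_const fun _ => Or.inr hq.le)
  have hF0 : ∀ y, 0 ≤ ai * V y ^ p := fun y => mul_nonneg hai0.le (Real.rpow_nonneg (hVb y).1 p)
  have hG0 : ∀ y, 0 ≤ bi * U y ^ q := fun y => mul_nonneg hbi0.le (Real.rpow_nonneg (hUb y).1 q)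
  have h00 : c ≤ U 0 + V 0 := by
    refine ge_of_tendsto ((hU 0).add (hV 0)) ?_
    filter_upwards [hWw 0, hZz 0, (eventually_gt_atTop 0).filter_mono hl0] with k h1 h2 hk
    rw [(h1 0 (by simp)).1, (h2 0 (by simp)).1]
    exact h0 k hk
  have pU : ∀ x, 0 < U x := by
    intro x
    refine lt_of_le_of_ne (hUb x).1 fun hx => ?_
    obtain ⟨e1, e2⟩ := smp hUc hFc (fun y => (hUb y).1) hF0 hr1 hx.symm
    have e3 : V 0 = 0 := by
      rcases mul_eq_zero.1 (e2 0) with h | h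
      · exact absurd h hai0.ne'
      · exact ((Real.rpow_eq_zero (hVb 0).1 hp.ne').1 h)
    rw [e1 0, e3] at h00
    linarith
  have pV : ∀ x, 0 < V x := by
    intro x
    refine lt_of_le_of_ne (hVb x).1 fun hx => ?_
    obtain ⟨e1, e2⟩ := smp hVc hGc (fun y => (hVb y).1) hG0 hr2 hx.symm
    have e3 : U 0 = 0 := by
      rcases mul_eq_zero.1 (e2 0) with h | h
      · exact absurd h hbi0.ne'
      · exact ((Real.rpow_eq_zero (hUb 0).1 hq.ne').1 h)
    rw [e1 0, e3] at h00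
    linarith
  have R1 := reg hUc hFc (locLip_of_pos hVc hVL pV (fun x => (hVb x).2) hai0.le) hr1
  have R2 := reg hVc hGc (locLip_of_pos hUc hUL pU (fun x => (hUb x).2) hbi0.le) hr2
  exact scale_sol hpq hai0 hbi0 R1.1 R2.1 pU pV R1.2 R2.2

end Vale.Agent.P100.H327
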