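import Mathlib

set_option autoImplicit false

/-!
P100: compactly supported radial kernels `Ps`, `Ph` on `ℝ^n` with `∇ Ps = - Ph x`, and the
averages `Av t F K x = ∫ F (x + t z) K z dz`: differentiation in `x`, bounds.
-/

noncomputable section

open MeasureTheory Metric Set Filter Topology
open scoped ContDiff

namespace Vale.Agent.P100.H327

/-- the Euclidean space -/
abbrev Eu (n : ℕ) := EuclideanSpace ℝ (Fin n)

variable {n : ℕ}

/-- the potential kernel -/
def Ps (x : Eu n) : ℝ := expNegInvGlue (1 - ‖x‖ ^ 2) / 2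

/-- the averaging kernel -/
def Ph (x : Eu n) : ℝ := ((1 - ‖x‖ ^ 2)⁻¹) ^ 2 * expNegInvGlue (1 - ‖x‖ ^ 2)

/-- smooth kernels supported in the unit ball -/
structure Ker {G : Type*} [NormedAddCommGroup G] [NormedSpace ℝ G] (K : Eu n → G) : Prop where
  smooth : ContDiff ℝ ∞ K
  zero : ∀ z : Eu n, 1 < ‖z‖ → K z = 0

lemma contDiff_one_sub : ContDiff ℝ ∞ fun x : Eu n => 1 - ‖x‖ ^ 2 :=
  contDiff_const.sub (contDiff_id.norm_sq ℝ)

lemma kerPs : Ker (Ps (n := n)) where
  smooth := by
    unfold Ps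
    exact (expNegInvGlue.contDiff.comp contDiff_one_sub).div_const 2
  zero := by
    intro z hz
    unfold Ps
    rw [expNegInvGlue.zero_of_nonpos (by nlinarith), zero_div]

lemma kerPh : Ker (Ph (n := n)) where
  smooth := by
    have h : ContDiff ℝ ∞ fun x : ℝ => Polynomial.eval x⁻¹ ((Polynomial.X : Polynomial ℝ) ^ 2) *
        expNegInvGlue x :=
      expNegInvGlue.contDiff_polynomial_eval_inv_mul (n := ⊤) ((Polynomial.X : Polynomial ℝ) ^ 2)
    have h2 := h.comp (contDiff_one_sub (n := n))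
    have he : Ph (n := n) = (fun x : ℝ => Polynomial.eval x⁻¹ ((Polynomial.X : Polynomial ℝ) ^ 2) *
        expNegInvGlue x) ∘ fun x : Eu n => 1 - ‖x‖ ^ 2 := by
      funext x
      simp [Ph, Function.comp]
    rw [he]
    exact h2
  zero := by
    intro z hz
    unfold Ph
    rw [expNegInvGlue.zero_of_nonpos (by nlinarith), mul_zero]

lemma Ps_nonneg (x : Eu n) : 0 ≤ Ps x := div_nonneg (expNegInvGlue.nonneg _) zero_le_two

lemma Ph_nonneg (x : Eu n) : 0 ≤ Ph x := mul_nonneg (sq_nonneg _) (expNegInvGlue.nonneg _)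

lemma Ps_pos {x : Eu n} (h : ‖x‖ < 1) : 0 < Ps x :=
  div_pos (expNegInvGlue.pos_of_pos (by nlinarith [norm_nonneg x])) zero_lt_two

lemma Ph_pos {x : Eu n} (h : ‖x‖ < 1) : 0 < Ph x := by
  have h1 : 0 < 1 - ‖x‖ ^ 2 := by nlinarith [norm_nonneg x]
  exact mul_pos (by positivity) (expNegInvGlue.pos_of_pos h1)

lemma hasFDerivAt_Ps (x : Eu n) :
    HasFDerivAt (Ps (n := n)) (-(Ph x) • (innerSL ℝ x : Eu n →L[ℝ] ℝ)) x := by
  have h := expNegInvGlue.hasDerivAt_polynomial_eval_inv_mul (1 : Polynomial ℝ) (1 - ‖x‖ ^ 2)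
  have h2 : HasFDerivAt (fun x : Eu n => 1 - ‖x‖ ^ 2) (-(2 • (innerSL ℝ x : Eu n →L[ℝ] ℝ))) x := by
    have := (hasStrictFDerivAt_norm_sq (F := Eu n) x).hasFDerivAt
    simpa using this.const_sub 1
  have h3 := (h.comp_hasFDerivAt x h2).const_mul (1 / 2)
  refine (h3.congr_of_eventuallyEq ?_).congr_fderiv ?_
  · filter_upwards with y
    simp [Ps]
    ring
  · ext v
    simp [Ph]
    ring

section Kern

variable {G : Type*} [NormedAddCommGroup G] [NormedSpace ℝ G]

lemma Ker.fderiv {K : Eu n → G} (hK : Ker K) : Ker (_root_.fderiv ℝ K) where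
  smooth := hK.smooth.fderiv_right (by norm_cast)
  zero := by
    intro z hz
    have h : K =ᶠ[𝓝 z] fun _ => 0 := by
      have ho : IsOpen {z : Eu n | 1 < ‖z‖} := isOpen_lt continuous_const continuous_norm
      filter_upwards [ho.mem_nhds hz] with y hy using hK.zero y hy
    rw [h.fderiv_eq]
    simp

lemma Ker.compact {K : Eu n → G} (hK : Ker K) : HasCompactSupport K :=
  HasCompactSupport.intro (isCompact_closedBall (0 : Eu n) 1) fun z hz => hK.zero z (by simpa using hz)

lemma Ker.cont {K : Eu n → G} (hK : Ker K) : Continuous K := hK.smooth.continuous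

lemma Ker.integrable {K : Eu n → G} (hK : Ker K) : Integrable K :=
  hK.cont.integrable_of_hasCompactSupport hK.compact

lemma Ker.bdd {K : Eu n → G} (hK : Ker K) : ∃ C : ℝ, 0 ≤ C ∧ ∀ z, ‖K z‖ ≤ C := by
  obtain ⟨C, hC⟩ := hK.cont.bounded_above_of_compact_support hK.compact
  exact ⟨max C 0, le_max_right _ _, fun z => (hC z).trans (le_max_left _ _)⟩

end Kern

/-- the averages -/
def Av {G : Type*} [NormedAddCommGroup G] [NormedSpace ℝ G] (t : ℝ) (F : Eu n → ℝ) (K : Eu n → G)
    (x : Eu n) : G := ∫ z, F (x + t • z) • K z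

section AvB

variable {G : Type*} [NormedAddCommGroup G] [NormedSpace ℝ G]

lemma av_integrable {t : ℝ} {F : Eu n → ℝ} {K : Eu n → G} (hF : Continuous F) (hK : Ker K)
    (x : Eu n) : Integrable fun z => F (x + t • z) • K z := by
  refine Continuous.integrable_of_hasCompactSupport ?_ ?_
  · exact (hF.comp (by fun_prop)).smul hK.cont
  · exact hK.compact.smul_left

lemma av_eq_set {t : ℝ} {F : Eu n → ℝ} {K : Eu n → G} (hK : Ker K) (x : Eu n) :
    Av t F K x = ∫ z in closedBall (0 : Eu n) 1, F (x + t • z) • K z := by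
  unfold Av
  rw [setIntegral_eq_integral_of_forall_compl_eq_zero]
  intro z hz
  rw [hK.zero z (by simpa using hz), smul_zero]

lemma av_continuous {F : Eu n → ℝ} {K : Eu n → G} (hF : Continuous F) (hK : Ker K) :
    Continuous fun y : ℝ × Eu n => Av y.1 F K y.2 := by
  have h : (fun y : ℝ × Eu n => Av y.1 F K y.2) =
      fun y => ∫ z in closedBall (0 : Eu n) 1, F (y.2 + y.1 • z) • K z := by
    funext y
    exact av_eq_set hK y.2
  rw [h]
  refine continuous_parametric_integral_of_continuous ?_ (isCompact_closedBall _ _)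
  have hc := hK.cont
  unfold Function.uncurry
  exact (hF.comp (by fun_prop)).smul (hc.comp continuous_snd)

/-- translation into the kernel -/
lemma av_shift {t : ℝ} (ht : t ≠ 0) {F : Eu n → ℝ} {K : Eu n → G} (x y : Eu n) :
    Av t F K y = ∫ z, F (x + t • z) • K (z - t⁻¹ • (y - x)) := by
  unfold Av
  rw [← integral_sub_right_eq_self (fun z => F (y + t • z) • K z) (t⁻¹ • (y - x))]
  refine integral_congr_ae (Eventually.of_forall fun z => ?_)
  have h : y + t • (z - t⁻¹ • (y - x)) = x + t • z := by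
    rw [smul_sub, smul_smul, mul_inv_cancel₀ ht, one_smul]
    abel
  simp only [h]

lemma av_hasFDerivAt {t : ℝ} (ht : 0 < t) {F : Eu n → ℝ} {K : Eu n → G} (hF : Continuous F)
    (hK : Ker K) (x : Eu n) :
    HasFDerivAt (Av t F K) (-(t⁻¹ • Av t F (fderiv ℝ K) x)) x := by
  obtain ⟨C, hC0, hC⟩ := hK.fderiv.bdd
  obtain ⟨B, hB⟩ := (isCompact_closedBall x (2 * t)).exists_bound_of_continuousOn hF.continuousOn
  have hev : Av t F K = fun y => ∫ z, F (x + t • z) • K (z - t⁻¹ • (y - x)) := by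
    funext y; exact av_shift ht.ne' x y
  have hd : ∀ (z y : Eu n), HasFDerivAt (fun y => F (x + t • z) • K (z - t⁻¹ • (y - x)))
      (F (x + t • z) • (-(t⁻¹ • fderiv ℝ K (z - t⁻¹ • (y - x))))) y := by
    intro z y
    have h1 : HasFDerivAt (fun y : Eu n => z - t⁻¹ • (y - x))
        (-(t⁻¹ • ContinuousLinearMap.id ℝ (Eu n))) y :=
      (((hasFDerivAt_id y).sub_const x).const_smul t⁻¹).const_sub z
    have h2 := (hK.smooth.differentiable (by norm_num) (z - t⁻¹ • (y - x))).hasFDerivAt.comp y h1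
    refine (h2.const_smul (F (x + t • z))).congr_fderiv ?_
    ext v
    simp
  rw [hev]
  have key := hasFDerivAt_integral_of_dominated_of_fderiv_le (𝕜 := ℝ) (μ := volume)
    (F := fun (y z : Eu n) => F (x + t • z) • K (z - t⁻¹ • (y - x)))
    (F' := fun (y z : Eu n) => F (x + t • z) • (-(t⁻¹ • fderiv ℝ K (z - t⁻¹ • (y - x)))))
    (x₀ := x) (s := ball x t) (bound := (closedBall (0 : Eu n) 2).indicator fun _ => |B| * (t⁻¹ * C))
    (ball_mem_nhds x ht) ?_ ?_ ?_ ?_ ?_ ?_
  · refine key.congr_fderiv ?_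
    simp only [sub_self, smul_zero, sub_zero]
    unfold Av
    rw [← integral_smul, ← integral_neg]
    refine integral_congr_ae (Eventually.of_forall fun z => ?_)
    simp only [smul_neg, smul_comm (F (x + t • z)) t⁻¹]
  · refine Eventually.of_forall fun y => Continuous.aestronglyMeasurable ?_
    exact (hF.comp (by fun_prop)).smul (hK.cont.comp (by fun_prop))
  · simpa using av_integrable (t := t) hF hK x
  · have : SecondCountableTopologyEither (Eu n) (Eu n →L[ℝ] G) :=
      secondCountableTopologyEither_of_left _ _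
    refine Continuous.aestronglyMeasurable ?_
    have hc1 : Continuous fun z : Eu n => z - t⁻¹ • (x - x) := continuous_id.sub continuous_const
    have hc2 : Continuous fun z : Eu n => fderiv ℝ K (z - t⁻¹ • (x - x)) := hK.fderiv.cont.comp hc1
    exact (hF.comp (by fun_prop)).smul (hc2.const_smul t⁻¹).neg
  · refine Eventually.of_forall fun z y hy => ?_
    have hy' : ‖y - x‖ < t := by simpa [dist_eq_norm] using hy
    by_cases hz : z ∈ closedBall (0 : Eu n) 2
    · rw [indicator_of_mem hz, norm_smul, norm_neg, norm_smul, norm_inv, Real.norm_of_nonneg ht.le]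
      have hz' : ‖z‖ ≤ 2 := by simpa using hz
      have h1 : ‖F (x + t • z)‖ ≤ |B| := by
        refine (hB _ ?_).trans (le_abs_self B)
        rw [mem_closedBall, dist_eq_norm, add_sub_cancel_left, norm_smul, Real.norm_of_nonneg ht.le]
        nlinarith
      exact mul_le_mul h1 (mul_le_mul_of_nonneg_left (hC _) (by positivity)) (by positivity)
        (abs_nonneg B)
    · rw [indicator_of_notMem hz]
      have hz' : 2 < ‖z‖ := by simpa using hz
      have h1 : ‖t⁻¹ • (y - x)‖ < 1 := by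
        rw [norm_smul, norm_inv, Real.norm_of_nonneg ht.le, inv_mul_lt_iff₀ ht]
        simpa using hy'
      have h2 : 1 < ‖z - t⁻¹ • (y - x)‖ := by
        have := norm_sub_norm_le z (t⁻¹ • (y - x))
        linarith
      rw [hK.fderiv.zero _ h2]
      simp
  · exact (integrable_indicator_iff measurableSet_closedBall).2
      (integrableOn_const (measure_closedBall_lt_top.ne))
  · exact Eventually.of_forall fun z y _ => hd z y

lemma integral_fderiv_eq_zero {K : Eu n → G} (hK : Ker K) : ∫ z, fderiv ℝ K z = 0 := by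
  have h := av_hasFDerivAt (t := 1) one_pos (F := fun _ => (1 : ℝ)) continuous_const hK (0 : Eu n)
  have hc : Av 1 (fun _ : Eu n => (1 : ℝ)) K = fun _ => ∫ z, K z := by
    funext y; simp [Av]
  rw [hc] at h
  have h2 := h.unique (hasFDerivAt_const (∫ z, K z) (0 : Eu n))
  simpa [Av] using h2

lemma av_norm_le {t M : ℝ} (ht : 0 ≤ t) {F : Eu n → ℝ} {K : Eu n → G} (hK : Ker K)
    {x : Eu n} (hM : ∀ y ∈ closedBall x t, |F y| ≤ M) : ‖Av t F K x‖ ≤ M * ∫ z, ‖K z‖ := by
  have hM0 : 0 ≤ M := (abs_nonneg _).trans (hM x (mem_closedBall_self ht))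
  unfold Av
  rw [← integral_const_mul]
  refine norm_integral_le_of_norm_le (hK.integrable.norm.const_mul M) (Eventually.of_forall fun z => ?_)
  rw [norm_smul]
  by_cases hz : ‖z‖ ≤ 1
  · refine mul_le_mul_of_nonneg_right (hM _ ?_) (norm_nonneg _)
    rw [mem_closedBall, dist_eq_norm, add_sub_cancel_left, norm_smul, Real.norm_of_nonneg ht]
    nlinarith
  · rw [hK.zero z (not_le.1 hz)]
    simp

lemma av_sub {t : ℝ} {F F' : Eu n → ℝ} {K : Eu n → G} {x : Eu n}
    (h1 : Integrable fun z => F (x + t • z) • K z) (h2 : Integrable fun z => F' (x + t • z) • K z) :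
    Av t F K x - Av t F' K x = Av t (fun y => F y - F' y) K x := by
  unfold Av
  rw [← integral_sub h1 h2]
  refine integral_congr_ae (Eventually.of_forall fun z => ?_)
  simp only [sub_smul]

lemma av_const (t c : ℝ) (K : Eu n → G) (x : Eu n) : Av t (fun _ => c) K x = c • ∫ z, K z :=
  integral_smul _ _

lemma av_cancel {t M : ℝ} (ht : 0 ≤ t) {F : Eu n → ℝ} {K : Eu n → G} (hF : Continuous F)
    (hK : Ker K) (h0 : ∫ z, K z = 0) {x : Eu n} (hM : ∀ y ∈ closedBall x t, |F y - F x| ≤ M) :
    ‖Av t F K x‖ ≤ M * ∫ z, ‖K z‖ := by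
  have h : Av t F K x = Av t (fun y => F y - F x) K x := by
    rw [← av_sub (t := t) (av_integrable hF hK x)
      (av_integrable (t := t) (F := fun _ => F x) continuous_const hK x),
      av_const, h0, smul_zero, sub_zero]
  rw [h]
  exact av_norm_le ht hK hM

/-- cancellation -/
lemma av_fderiv_le {t M : ℝ} (ht : 0 ≤ t) {F : Eu n → ℝ} {K : Eu n → G} (hF : Continuous F)
    (hK : Ker K) {x : Eu n} (hM : ∀ y ∈ closedBall x t, |F y - F x| ≤ M) :
    ‖Av t F (fderiv ℝ K) x‖ ≤ M * ∫ z, ‖fderiv ℝ K z‖ :=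
   av_cancel ht hF hK.fderiv (integral_fderiv_eq_zero hK) hM

end AvB

end Vale.Agent.P100.H327
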