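import Vale.Agent.P100.H327.Reg

set_option autoImplicit false

/-!
P100: locally uniform limits along a filter of equi-Lipschitz functions; limits of almost-solutions
of the Lane-Emden system on growing balls are positive entire solutions.
-/

noncomputable section

open MeasureTheory Metric Set Filter Topology
open scoped ContDiff

namespace Vale.Agent.P100.H327

variable {n : ℕ}

/-- pointwise limits along an ultrafilter -/
lemma exists_ulim {w : ℕ → ℝ} {M : ℝ} {l : Ultrafilter ℕ} (h : ∀ᶠ k in (l : Filter ℕ), |w k| ≤ M) :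
    ∃ u : ℝ, Tendsto w l (𝓝 u) := by
  have hc : IsCompact (Icc (-M) M) := isCompact_Icc
  have hm : ∀ᶠ k in (l : Filter ℕ), w k ∈ Icc (-M) M := h.mono fun k hk => abs_le.1 hk
  obtain ⟨u, _, hu⟩ := isCompact_iff_ultrafilter_le_nhds.1 hc (l.map w)
    (by rw [Filter.le_principal_iff]; exact hm)
  exact ⟨u, hu⟩

/-- equi-Lipschitz functions: pointwise convergence is locally uniform -/
lemma unif_of_equi {l : Filter ℕ} [l.NeBot] {W : ℕ → Eu n → ℝ} {U : Eu n → ℝ} {L : ℝ} (hL : 0 ≤ L)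
    (hU : ∀ x, Tendsto (fun k => W k x) l (𝓝 (U x)))
    (hW : ∀ ρ : ℝ, ∀ᶠ k in l, ∀ x y : Eu n, ‖x‖ ≤ ρ → ‖y‖ ≤ ρ → |W k x - W k y| ≤ L * ‖y - x‖) :
    (∀ x y, |U x - U y| ≤ L * ‖y - x‖) ∧
    ∀ ρ ε : ℝ, 0 < ε → ∀ᶠ k in l, ∀ y, ‖y‖ ≤ ρ → |W k y - U y| ≤ ε := by
  have h1 : ∀ x y, |U x - U y| ≤ L * ‖y - x‖ := by
    intro x y
    have h2 : Tendsto (fun k => |W k x - W k y|) l (𝓝 |U x - U y|) := ((hU x).sub (hU y)).abs
    refine le_of_tendsto h2 ?_
    filter_upwards [hW (max ‖x‖ ‖y‖)] with k hk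
    exact hk x y (le_max_left _ _) (le_max_right _ _)
  refine ⟨h1, fun ρ ε hε => ?_⟩
  have hδ : 0 < ε / (3 * (L + 1)) := by positivity
  obtain ⟨t, hts, htf, hcov⟩ := (isCompact_closedBall (0 : Eu n) ρ).finite_cover_balls hδ
  have h3 : ∀ᶠ k in l, ∀ x ∈ t, |W k x - U x| ≤ ε / 3 := by
    rw [htf.eventually_all]
    intro x _
    have h4 : Tendsto (fun k => |W k x - U x|) l (𝓝 0) := by
      have := ((hU x).sub_const (U x)).abs
      simpa using this
    exact (h4.eventually (ge_mem_nhds (by positivity : (0 : ℝ) < ε / 3)))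
  filter_upwards [h3, hW ρ] with k hk1 hk2
  intro y hy
  have hy' : y ∈ closedBall (0 : Eu n) ρ := by simpa using hy
  obtain ⟨x, hx, hyx⟩ := mem_iUnion₂.1 (hcov hy')
  have hxρ : ‖x‖ ≤ ρ := by simpa using hts hx
  have hd : ‖y - x‖ ≤ ε / (3 * (L + 1)) := by
    have : dist y x < ε / (3 * (L + 1)) := hyx
    rw [dist_eq_norm] at this
    exact this.le
  have hd' : L * ‖y - x‖ ≤ ε / 3 := by
    calc L * ‖y - x‖ ≤ (L + 1) * (ε / (3 * (L + 1))) :=
          mul_le_mul (by linarith) hd (norm_nonneg _) (by linarith)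
      _ = ε / 3 := by field_simp
  have e1 := hk2 x y hxρ hy
  have e2 := h1 x y
  have e3 := hk1 x hx
  rw [abs_sub_comm] at e1
  have e4 : W k y - U y = (W k y - W k x) + (W k x - U x) + (U x - U y) := by ring
  rw [e4]
  refine (abs_add_le _ _).trans ?_
  have := abs_add_le (W k y - W k x) (W k x - U x)
  linarith

lemma pow_unif {p M : ℝ} (hp : 0 < p) {ε : ℝ} (hε : 0 < ε) :
    ∃ δ > 0, ∀ s t : ℝ, 0 ≤ s → s ≤ M → 0 ≤ t → t ≤ M → |s - t| ≤ δ → |s ^ p - t ^ p| ≤ ε := by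
  have hc : ContinuousOn (fun s : ℝ => s ^ p) (Icc 0 M) :=
    (continuous_id.rpow_const fun _ => Or.inr hp.le).continuousOn
  have hu := isCompact_Icc.uniformContinuousOn_of_continuous hc
  obtain ⟨δ, hδ, h⟩ := Metric.uniformContinuousOn_iff.1 hu ε hε
  refine ⟨δ / 2, by positivity, fun s t hs hsM ht htM hst => ?_⟩
  have := h s ⟨hs, hsM⟩ t ⟨ht, htM⟩ (by rw [Real.dist_eq]; linarith)
  rw [Real.dist_eq] at this
  exact this.le

lemma pow_lip {p m M : ℝ} (hm : 0 < m) :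
    ∃ C, 0 ≤ C ∧ ∀ s t : ℝ, m ≤ s → s ≤ M → m ≤ t → t ≤ M → |s ^ p - t ^ p| ≤ C * |s - t| := by
  have hc : ContinuousOn (fun s : ℝ => p * s ^ (p - 1)) (Icc m M) :=
    continuousOn_const.mul (continuousOn_id.rpow_const fun s hs => Or.inl (hm.trans_le hs.1).ne')
  obtain ⟨C, hC⟩ := isCompact_Icc.exists_bound_of_continuousOn hc
  refine ⟨max C 0, le_max_right _ _, fun s t hs hsM ht htM => ?_⟩
  have h := (convex_Icc m M).norm_image_sub_le_of_norm_hasDerivWithin_le (𝕜 := ℝ)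
    (f := fun s : ℝ => s ^ p) (f' := fun s : ℝ => p * s ^ (p - 1)) (C := max C 0)
    (fun x hx => (Real.hasDerivAt_rpow_const (Or.inl (hm.trans_le hx.1).ne')).hasDerivWithinAt)
    (fun x hx => (hC x hx).trans (le_max_left _ _)) ⟨ht, htM⟩ ⟨hs, hsM⟩
  simpa using h

lemma locLip_of_pos {V : Eu n → ℝ} {L p M a : ℝ} (hV : Continuous V)
    (hL : ∀ x y, |V x - V y| ≤ L * ‖y - x‖) (hpos : ∀ x, 0 < V x) (hM : ∀ x, V x ≤ M)
    (ha : 0 ≤ a) : LocLip fun x => a * V x ^ p := by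
  intro ρ
  rcases lt_or_ge ρ 0 with hρ | hρ
  · exact ⟨0, le_rfl, fun x y hx _ => absurd (norm_nonneg x) (by linarith)⟩
  obtain ⟨x0, _, hx0⟩ := (isCompact_closedBall (0 : Eu n) ρ).exists_isMinOn
    ⟨0, by simpa using hρ⟩ hV.continuousOn
  obtain ⟨C, hC0, hC⟩ := pow_lip (p := p) (m := V x0) (M := M) (hpos x0)
  refine ⟨a * (C * |L|), by positivity, fun x y hx hy => ?_⟩
  have h1 : V x0 ≤ V x := hx0 (by simpa using hx)
  have h2 : V x0 ≤ V y := hx0 (by simpa using hy)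
  have h3 := hC (V x) (V y) h1 (hM x) h2 (hM y)
  rw [← mul_sub, abs_mul, abs_of_nonneg ha]
  have h4 : |V x - V y| ≤ |L| * ‖x - y‖ := by
    refine (hL x y).trans ?_
    rw [norm_sub_rev]
    exact mul_le_mul_of_nonneg_right (le_abs_self L) (norm_nonneg _)
  calc a * |V x ^ p - V y ^ p| ≤ a * (C * (|L| * ‖x - y‖)) :=
        mul_le_mul_of_nonneg_left (h3.trans (mul_le_mul_of_nonneg_left h4 hC0)) ha
    _ = a * (C * |L|) * ‖x - y‖ := by ring

lemma av_nonneg {t : ℝ} {F K : Eu n → ℝ} (hF : ∀ x, 0 ≤ F x) (hK : ∀ x, 0 ≤ K x) (x : Eu n) :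
    0 ≤ Av t F K x := by
  unfold Av
  exact integral_nonneg fun z => mul_nonneg (hF _) (hK _)

/-- strong maximum principle -/
lemma smp {U F : Eu n → ℝ} (hU : Continuous U) (hF : Continuous F) (hU0 : ∀ x, 0 ≤ U x)
    (hF0 : ∀ x, 0 ≤ F x)
    (hrep : ∀ x r, 0 ≤ r → c0 n * U x = Av r U Ph x + ∫ t in (0 : ℝ)..r, t * Av t F Ps x)
    {x : Eu n} (hx : U x = 0) : (∀ y, U y = 0) ∧ ∀ y, F y = 0 := by
  have hint : ∀ x r, 0 ≤ r → 0 ≤ ∫ t in (0 : ℝ)..r, t * Av t F Ps x := by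
    intro x r hr
    refine intervalIntegral.integral_nonneg hr fun t ht => ?_
    exact mul_nonneg ht.1 (av_nonneg hF0 Ps_nonneg x)
  have hU1 : ∀ y, U y = 0 := by
    intro y
    set r : ℝ := ‖y - x‖ + 1 with hr
    have hr0 : 0 < r := by positivity
    have h1 := hrep x r hr0.le
    rw [hx, mul_zero] at h1
    have h2 := av_nonneg (t := r) hU0 Ph_nonneg x
    have h3 := hint x r hr0.le
    have h4 : Av r U Ph x = 0 := by linarith
    have h5 : (fun z => U (x + r • z) • Ph z) = fun _ => (0 : ℝ) := by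
      have hc : Continuous fun z : Eu n => U (x + r • z) • Ph z :=
        (hU.comp (by fun_prop)).smul kerPh.cont
      have h6 := (integral_eq_zero_iff_of_nonneg (fun z => mul_nonneg (hU0 _) (Ph_nonneg _))
        (av_integrable hU kerPh x)).1 h4
      exact (Continuous.ae_eq_iff_eq volume hc continuous_const).1 h6
    have h7 := congrFun h5 (r⁻¹ • (y - x))
    have h8 : x + r • (r⁻¹ • (y - x)) = y := by
      rw [smul_smul, mul_inv_cancel₀ hr0.ne', one_smul]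
      abel
    simp only [h8, smul_eq_mul] at h7
    rcases mul_eq_zero.1 h7 with h9 | h9
    · exact h9
    · refine absurd h9 (Ph_pos ?_).ne'
      rw [norm_smul, norm_inv, Real.norm_of_nonneg hr0.le, inv_mul_lt_iff₀ hr0]
      linarith
  refine ⟨hU1, fun y => zero_of_pot hF y fun r hr => ?_⟩
  have h1 := hrep y r hr
  rw [hU1 y, mul_zero] at h1
  have h2 := av_nonneg (t := r) hU0 Ph_nonneg y
  have h3 := hint y r hr
  linarith

end Vale.Agent.P100.H327
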