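import Vale.Agent.P100.H327.Rep

set_option autoImplicit false

/-!
P100: Lipschitz estimate from the representation, localisation of `C²` functions, and the passage
to the limit in the representation.
-/

noncomputable section

open MeasureTheory Metric Set Filter Topology
open scoped ContDiff

namespace Vale.Agent.P100.H327

variable {n : ℕ}

/-- `L¹` modulus of translation of a kernel -/
lemma ker_translate {K : Eu n → ℝ} (hK : Ker K) :
    ∃ C, 0 ≤ C ∧ ∀ e : Eu n, ∫ z, |K z - K (z - e)| ≤ C * ‖e‖ := by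
  obtain ⟨L, hL0, hL⟩ := hK.fderiv.bdd
  have hint : ∀ e : Eu n, Integrable fun z => |K z - K (z - e)| := fun e =>
    (hK.integrable.sub (hK.integrable.comp_sub_right e)).abs
  set V : ℝ := (volume (closedBall (0 : Eu n) 2)).toReal with hV
  have hV0 : 0 ≤ V := ENNReal.toReal_nonneg
  have hI0 : 0 ≤ ∫ z, |K z| := integral_nonneg fun z => abs_nonneg _
  refine ⟨L * V + 2 * ∫ z, |K z|, by positivity, fun e => ?_⟩
  rcases le_or_gt ‖e‖ 1 with he | he
  · have h1 : ∀ z, |K z - K (z - e)| ≤ (closedBall (0 : Eu n) 2).indicator (fun _ => L * ‖e‖) z := by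
      intro z
      by_cases hz : z ∈ closedBall (0 : Eu n) 2
      · rw [indicator_of_mem hz]
        have h2 := convex_univ.norm_image_sub_le_of_norm_fderiv_le (𝕜 := ℝ) (f := K) (C := L)
          (fun x _ => hK.smooth.differentiable (by norm_num) x) (fun x _ => hL x)
          (mem_univ (z - e)) (mem_univ z)
        simpa using h2
      · rw [indicator_of_notMem hz]
        have hz' : 2 < ‖z‖ := by simpa using hz
        have h2 : 1 < ‖z - e‖ := by
          have := norm_sub_norm_le z e
          linarith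
        rw [hK.zero z (by linarith), hK.zero _ h2]
        simp
    have h3 : ∫ z, |K z - K (z - e)| ≤
        ∫ z, (closedBall (0 : Eu n) 2).indicator (fun _ => L * ‖e‖) z := by
      refine integral_mono (hint e) ?_ h1
      exact (integrable_indicator_iff measurableSet_closedBall).2
        (integrableOn_const measure_closedBall_lt_top.ne)
    rw [integral_indicator measurableSet_closedBall, setIntegral_const] at h3
    refine h3.trans ?_
    have h4 : volume.real (closedBall (0 : Eu n) 2) • (L * ‖e‖) = L * V * ‖e‖ := by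
      rw [smul_eq_mul, hV]
      simp only [Measure.real]
      ring
    rw [h4]
    have : 0 ≤ 2 * (∫ z, |K z|) * ‖e‖ := by positivity
    nlinarith
  · have h1 : ∫ z, |K z - K (z - e)| ≤ ∫ z, (|K z| + |K (z - e)|) := by
      refine integral_mono (hint e) (hK.integrable.abs.add (hK.integrable.comp_sub_right e).abs)
        fun z => ?_
      exact abs_sub _ _
    have h2 : ∫ z, (|K z| + |K (z - e)|) = 2 * ∫ z, |K z| := by
      rw [integral_add hK.integrable.abs (hK.integrable.comp_sub_right e).abs,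
        integral_sub_right_eq_self (fun z => |K z|) e]
      ring
    rw [h2] at h1
    refine h1.trans ?_
    have h3 : 0 ≤ L * V * ‖e‖ := by positivity
    nlinarith [hI0]

lemma av_lip {K : Eu n → ℝ} (hK : Ker K) : ∃ C, 0 ≤ C ∧ ∀ (t : ℝ), 0 < t → ∀ F : Eu n → ℝ,
    Continuous F → ∀ (x y : Eu n) (M : ℝ),
    (∀ p, p ∈ closedBall x t ∨ p ∈ closedBall y t → |F p| ≤ M) →
    |Av t F K x - Av t F K y| ≤ C * M * (t⁻¹ * ‖y - x‖) := by
  obtain ⟨C, hC0, hC⟩ := ker_translate hK
  refine ⟨C, hC0, fun t ht F hF x y M hM => ?_⟩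
  have hM0 : 0 ≤ M := (abs_nonneg _).trans (hM x (Or.inl (mem_closedBall_self ht.le)))
  set e : Eu n := t⁻¹ • (y - x) with he
  have h1 : Av t F K y = ∫ z, F (x + t • z) • K (z - e) := av_shift ht.ne' x y
  have hi1 : Integrable fun z => F (x + t • z) • K z := av_integrable hF hK x
  have hxy : ∀ z, y + t • (z - e) = x + t • z := by
    intro z
    rw [smul_sub, he, smul_smul, mul_inv_cancel₀ ht.ne', one_smul]
    abel
  have hi2 : Integrable fun z => F (x + t • z) • K (z - e) := by
    have := (av_integrable (t := t) hF hK y).comp_sub_right e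
    refine this.congr (Eventually.of_forall fun z => ?_)
    simp only [hxy]
  rw [h1]
  unfold Av
  rw [← integral_sub hi1 hi2]
  have h2 : ‖∫ z, (F (x + t • z) • K z - F (x + t • z) • K (z - e))‖ ≤
      ∫ z, M * |K z - K (z - e)| := by
    refine norm_integral_le_of_norm_le
      ((hK.integrable.sub (hK.integrable.comp_sub_right e)).abs.const_mul M)
      (Eventually.of_forall fun z => ?_)
    rw [← smul_sub, smul_eq_mul, norm_mul, Real.norm_eq_abs, Real.norm_eq_abs]
    by_cases hz : ‖z‖ ≤ 1 ∨ ‖z - e‖ ≤ 1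
    · refine mul_le_mul_of_nonneg_right (hM _ ?_) (abs_nonneg _)
      rcases hz with hz | hz
      · left
        rw [mem_closedBall, dist_eq_norm, add_sub_cancel_left, norm_smul, Real.norm_of_nonneg ht.le]
        nlinarith
      · right
        rw [← hxy, mem_closedBall, dist_eq_norm, add_sub_cancel_left, norm_smul,
          Real.norm_of_nonneg ht.le]
        nlinarith
    · rw [not_or, not_le, not_le] at hz
      rw [hK.zero z hz.1, hK.zero _ hz.2]
      simp
  rw [Real.norm_eq_abs, integral_const_mul] at h2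
  refine h2.trans ?_
  have h3 := hC e
  have h4 : ‖e‖ = t⁻¹ * ‖y - x‖ := by
    rw [he, norm_smul, norm_inv, Real.norm_of_nonneg ht.le]
  calc M * ∫ z, |K z - K (z - e)| ≤ M * (C * ‖e‖) := mul_le_mul_of_nonneg_left h3 hM0
    _ = C * M * (t⁻¹ * ‖y - x‖) := by rw [h4]; ring

/-- interior Lipschitz estimate -/
theorem lip_est (n : ℕ) : ∃ C, 0 ≤ C ∧ ∀ w : Eu n → ℝ, ContDiff ℝ 2 w → ∀ (x y : Eu n) (M M' : ℝ),
    (∀ p, p ∈ closedBall x 1 ∨ p ∈ closedBall y 1 → |w p| ≤ M) →
    (∀ p, p ∈ closedBall x 1 ∨ p ∈ closedBall y 1 → |Laplacian.laplacian w p| ≤ M') →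
    |w x - w y| ≤ C * (M + M') * ‖y - x‖ := by
  obtain ⟨C1, hC1, h1⟩ := av_lip (kerPh (n := n))
  obtain ⟨C2, hC2, h2⟩ := av_lip (kerPs (n := n))
  have hc := c0_pos (n := n)
  refine ⟨(C1 + C2) / c0 n, by positivity, fun w hw x y M M' hM hM' => ?_⟩
  have hM0 : 0 ≤ M := (abs_nonneg _).trans (hM x (Or.inl (mem_closedBall_self zero_le_one)))
  have hM0' : 0 ≤ M' := (abs_nonneg _).trans (hM' x (Or.inl (mem_closedBall_self zero_le_one)))
  obtain ⟨L, hL⟩ : ∃ L : Eu n → ℝ, L = fun y => -Laplacian.laplacian w y := ⟨_, rfl⟩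
  have hLc : Continuous L := by rw [hL]; exact (lap_continuous hw).neg
  have hr1 := rep hw x 1
  have hr2 := rep hw y 1
  rw [← hL] at hr1 hr2
  have hav : ∀ x : Eu n, Continuous fun t : ℝ => t * Av t L Ps x := fun x =>
    continuous_id.mul ((av_continuous hLc kerPs).comp (continuous_id.prodMk continuous_const))
  have hi : ∀ x : Eu n, IntervalIntegrable (fun t : ℝ => t * Av t L Ps x) volume 0 1 := fun x =>
    (hav x).intervalIntegrable 0 1
  have hb1 := h1 1 one_pos w hw.continuous x y M hM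
  have hb2 : |(∫ t in (0 : ℝ)..1, t * Av t L Ps x) - ∫ t in (0 : ℝ)..1, t * Av t L Ps y| ≤
      C2 * M' * ‖y - x‖ := by
    rw [← intervalIntegral.integral_sub (hi x) (hi y)]
    have h3 := intervalIntegral.norm_integral_le_of_norm_le_const (a := 0) (b := 1)
      (f := fun t : ℝ => t * Av t L Ps x - t * Av t L Ps y) (C := C2 * M' * ‖y - x‖) ?_
    · simpa using h3
    · intro t ht
      rw [uIoc_of_le zero_le_one] at ht
      rw [← mul_sub, norm_mul, Real.norm_eq_abs, Real.norm_eq_abs, abs_of_pos ht.1]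
      have h4 := h2 t ht.1 L hLc x y M' ?_
      · calc t * |Av t L Ps x - Av t L Ps y| ≤ t * (C2 * M' * (t⁻¹ * ‖y - x‖)) :=
              mul_le_mul_of_nonneg_left h4 ht.1.le
          _ = C2 * M' * ‖y - x‖ := by
              have := ht.1.ne'
              field_simp
      · intro p hp
        rw [hL]
        simp only [abs_neg]
        refine hM' p ?_
        rcases hp with hp | hp
        · exact Or.inl (closedBall_subset_closedBall ht.2 hp)
        · exact Or.inr (closedBall_subset_closedBall ht.2 hp)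
  have h5 : c0 n * (w x - w y) = (Av 1 w Ph x - Av 1 w Ph y) +
      ((∫ t in (0 : ℝ)..1, t * Av t L Ps x) - ∫ t in (0 : ℝ)..1, t * Av t L Ps y) := by
    rw [mul_sub, hr1, hr2]; ring
  have h6 : c0 n * |w x - w y| ≤ C1 * M * ‖y - x‖ + C2 * M' * ‖y - x‖ := by
    rw [← abs_of_pos hc, ← abs_mul, h5]
    refine (abs_add_le _ _).trans (add_le_add ?_ hb2)
    simpa using hb1
  have h7 : C1 * M * ‖y - x‖ + C2 * M' * ‖y - x‖ ≤ (C1 + C2) * (M + M') * ‖y - x‖ := by
    have := norm_nonneg (y - x)
    nlinarith [mul_nonneg (mul_nonneg hC1 hM0') this, mul_nonneg (mul_nonneg hC2 hM0) this]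
  have h8 : |w x - w y| ≤ ((C1 + C2) * (M + M') * ‖y - x‖) / c0 n := by
    rw [le_div_iff₀ hc]
    linarith
  refine h8.trans (le_of_eq ?_)
  ring

/-- localisation -/
lemma localize {w : Eu n → ℝ} {x0 : Eu n} {ρ ρ' : ℝ} (h0 : 0 < ρ') (h1 : ρ' < ρ)
    (hw : ContDiffOn ℝ 2 w (ball x0 ρ)) :
    ∃ w' : Eu n → ℝ, ContDiff ℝ 2 w' ∧ ∀ y ∈ ball x0 ρ', w' =ᶠ[𝓝 y] w := by
  let f : ContDiffBump x0 := ⟨ρ', (ρ' + ρ) / 2, h0, by linarith⟩
  refine ⟨fun y => f y * w y, ?_, ?_⟩
  · rw [contDiff_iff_contDiffAt]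
    intro y
    by_cases hy : y ∈ ball x0 ρ
    · exact f.contDiffAt.mul (hw.contDiffAt (isOpen_ball.mem_nhds hy))
    · have hz : (fun y => f y * w y) =ᶠ[𝓝 y] fun _ => 0 := by
        have ho : IsOpen {z : Eu n | (ρ' + ρ) / 2 < dist z x0} :=
          isOpen_lt continuous_const (continuous_id.dist continuous_const)
        have hy' : (ρ' + ρ) / 2 < dist y x0 := by
          have : ρ ≤ dist y x0 := by simpa using hy
          linarith
        filter_upwards [ho.mem_nhds hy'] with z hz
        have : f z = 0 := f.zero_of_le_dist (le_of_lt hz)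
        rw [this, zero_mul]
      exact contDiffAt_const.congr_of_eventuallyEq hz
  · intro y hy
    filter_upwards [isOpen_ball.mem_nhds hy] with z hz
    have : f z = 1 := f.one_of_mem_closedBall (ball_subset_closedBall hz)
    rw [this, one_mul]

/-- passage to the limit in the representation -/
theorem limit_rep {U F : Eu n → ℝ} (hU : Continuous U) (hF : Continuous F)
    (h : ∀ ρ ε : ℝ, 0 < ε → ∃ w : Eu n → ℝ, ContDiff ℝ 2 w ∧ ∀ y, ‖y‖ ≤ ρ →
      |w y - U y| ≤ ε ∧ |-Laplacian.laplacian w y - F y| ≤ ε) (x : Eu n) {r : ℝ} (hr : 0 ≤ r) :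
    c0 n * U x = Av r U Ph x + ∫ t in (0 : ℝ)..r, t * Av t F Ps x := by
  set A : ℝ := c0 n + (∫ z : Eu n, ‖Ph z‖) + r * r * ∫ z : Eu n, ‖Ps z‖ with hA
  have hA0 : 0 < A := by
    have h1 : 0 ≤ ∫ z : Eu n, ‖Ph z‖ := integral_nonneg fun z => norm_nonneg _
    have h2 : 0 ≤ ∫ z : Eu n, ‖Ps z‖ := integral_nonneg fun z => norm_nonneg _
    have h3 := c0_pos (n := n)
    positivity
  have key : ∀ ε > 0, |c0 n * U x - (Av r U Ph x + ∫ t in (0 : ℝ)..r, t * Av t F Ps x)| ≤
      A * ε := by
    intro ε hε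
    obtain ⟨w, hw, hwb⟩ := h (‖x‖ + r) ε hε
    obtain ⟨L, hL⟩ : ∃ L : Eu n → ℝ, L = fun y => -Laplacian.laplacian w y := ⟨_, rfl⟩
    have hLc : Continuous L := by rw [hL]; exact (lap_continuous hw).neg
    have hr1 := rep hw x r
    rw [← hL] at hr1
    have hball : ∀ {s}, s ≤ r → ∀ y ∈ closedBall x s, ‖y‖ ≤ ‖x‖ + r := by
      intro s hs y hy
      have h1 : ‖y - x‖ ≤ s := by simpa [dist_eq_norm] using hy
      have h2 := norm_add_le x (y - x)
      have h3 : x + (y - x) = y := by abel
      rw [h3] at h2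
      linarith
    have hav : ∀ G : Eu n → ℝ, Continuous G → Continuous fun t : ℝ => t * Av t G Ps x :=
      fun G hG =>
      continuous_id.mul ((av_continuous hG kerPs).comp (continuous_id.prodMk continuous_const))
    have e1 : |c0 n * w x - c0 n * U x| ≤ c0 n * ε := by
      rw [← mul_sub, abs_mul, abs_of_pos c0_pos]
      exact mul_le_mul_of_nonneg_left (hwb x (by linarith)).1 c0_pos.le
    have e2 : |Av r w Ph x - Av r U Ph x| ≤ ε * ∫ z : Eu n, ‖Ph z‖ := by
      rw [av_sub (av_integrable hw.continuous kerPh x) (av_integrable hU kerPh x)]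
      exact av_norm_le hr kerPh fun y hy => (hwb y (hball le_rfl y hy)).1
    have e3 : |(∫ t in (0 : ℝ)..r, t * Av t L Ps x) - ∫ t in (0 : ℝ)..r, t * Av t F Ps x| ≤
        r * r * (ε * ∫ z : Eu n, ‖Ps z‖) := by
      rw [← intervalIntegral.integral_sub ((hav L hLc).intervalIntegrable 0 r)
        ((hav F hF).intervalIntegrable 0 r)]
      have h3 := intervalIntegral.norm_integral_le_of_norm_le_const (a := 0) (b := r)
        (f := fun t : ℝ => t * Av t L Ps x - t * Av t F Ps x)
        (C := r * (ε * ∫ z : Eu n, ‖Ps z‖)) ?_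
      · rw [sub_zero, abs_of_nonneg hr, Real.norm_eq_abs] at h3
        refine h3.trans (le_of_eq ?_)
        ring
      · intro t ht
        rw [uIoc_of_le hr] at ht
        rw [← mul_sub, norm_mul, Real.norm_eq_abs, abs_of_pos ht.1,
          av_sub (av_integrable hLc kerPs x) (av_integrable hF kerPs x)]
        have h4 : ‖Av t (fun y => L y - F y) Ps x‖ ≤ ε * ∫ z : Eu n, ‖Ps z‖ := by
          refine av_norm_le ht.1.le kerPs fun y hy => ?_
          rw [hL]
          exact (hwb y (hball ht.2 y hy)).2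
        exact mul_le_mul ht.2 h4 (norm_nonneg _) hr
    have e4 : c0 n * U x - (Av r U Ph x + ∫ t in (0 : ℝ)..r, t * Av t F Ps x) =
        -(c0 n * w x - c0 n * U x) + (Av r w Ph x - Av r U Ph x) +
        ((∫ t in (0 : ℝ)..r, t * Av t L Ps x) - ∫ t in (0 : ℝ)..r, t * Av t F Ps x) := by
      rw [hr1]; ring
    rw [e4]
    refine (abs_add_le _ _).trans ?_
    have e5 := abs_add_le (-(c0 n * w x - c0 n * U x)) (Av r w Ph x - Av r U Ph x)
    rw [abs_neg] at e5
    rw [hA]
    nlinarith
  have h0 : |c0 n * U x - (Av r U Ph x + ∫ t in (0 : ℝ)..r, t * Av t F Ps x)| ≤ 0 := by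
    refine le_of_forall_pos_le_add fun ε hε => ?_
    have := key (ε / A) (by positivity)
    rw [zero_add]
    refine this.trans (le_of_eq ?_)
    field_simp
  have := abs_nonpos_iff.1 h0
  linarith

end Vale.Agent.P100.H327
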