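import Vale.Agent.P100.H327.Bound

set_option autoImplicit false

/-!
P100: the universal local bound with gradients.
-/

noncomputable section

open MeasureTheory Metric Set Filter Topology
open scoped ContDiff

namespace Vale.Agent.P100.H327

variable {n : ℕ}

/-- gradient of one component -/
lemma grad_comp (n : ℕ) : ∃ C, 0 ≤ C ∧ ∀ {p α β Λ K R : ℝ} {x0 : Eu n} {a u v : Eu n → ℝ},
    0 < p → α + 2 = β * p → 0 < K → 0 < R → ContDiffOn ℝ 2 u (ball x0 R) →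
    (∀ x ∈ ball x0 (R / 2), 0 ≤ u x ∧ u x ≤ K ^ α * (R / 2) ^ (-α)) →
    (∀ x ∈ ball x0 (R / 2), 0 ≤ v x ∧ v x ≤ K ^ β * (R / 2) ^ (-β)) →
    (∀ x ∈ ball x0 R, 0 ≤ a x ∧ a x ≤ Λ) →
    (∀ x ∈ ball x0 R, -Laplacian.laplacian u x = a x * v x ^ p) →
    ‖fderiv ℝ u x0‖ ≤ 4 * (C * ((2 * K) ^ α + Λ * (2 * K) ^ (α + 2))) * R ^ (-α - 1) := by
  obtain ⟨C, hC0, hC⟩ := grad_two n
  refine ⟨C, hC0, fun {p α β Λ K R x0 a u v} hp hαβ hK hR cu hu hv ha he => ?_⟩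
  have hR4 : 0 < R / 4 := by positivity
  have hK2 : 0 < 2 * K := by positivity
  have hin : ∀ y ∈ ball (0 : Eu n) 2, x0 + (R / 4) • y ∈ ball x0 (R / 2) := by
    intro y hy
    have hy' : ‖y‖ < 2 := by simpa using hy
    rw [mem_ball, dist_eq_norm, add_sub_cancel_left, norm_smul, Real.norm_of_nonneg hR4.le]
    nlinarith
  have hsub : ball x0 (R / 2) ⊆ ball x0 R := ball_subset_ball (by linarith)
  have hΛ : 0 ≤ Λ := by
    have := ha x0 (mem_ball_self hR)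
    exact this.1.trans this.2
  have hscale : ∀ γ : ℝ, R ^ γ * (K ^ γ * (R / 2) ^ (-γ)) = (2 * K) ^ γ := by
    intro γ
    rw [Real.rpow_neg (by positivity), Real.div_rpow hR.le (by norm_num),
      Real.mul_rpow (by norm_num) hK.le]
    have h1 := (Real.rpow_pos_of_pos hR γ).ne'
    have h2 := (Real.rpow_pos_of_pos (two_pos : (0 : ℝ) < 2) γ).ne'
    field_simp
  have key := hC (fun y => R ^ α * u (x0 + (R / 4) • y)) ((2 * K) ^ α)
    (Λ * (2 * K) ^ (α + 2)) (contDiffOn_affine cu fun y hy => hsub (hin y hy)) ?_ ?_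
  · rw [fderiv_affine, norm_smul, norm_mul, Real.norm_of_nonneg (Real.rpow_nonneg hR.le _),
      Real.norm_of_nonneg hR4.le] at key
    have h3 : R ^ (-α - 1) * (R ^ α * (R / 4)) = 1 / 4 := by
      have h4 : R ^ (-α - 1) * R ^ α = R⁻¹ := by
        rw [← Real.rpow_add hR, ← Real.rpow_neg_one]
        congr 1
        ring
      calc R ^ (-α - 1) * (R ^ α * (R / 4)) = (R ^ (-α - 1) * R ^ α) * (R / 4) := by ring
        _ = 1 / 4 := by rw [h4]; field_simp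
    have h5 : 0 < R ^ (-α - 1) := Real.rpow_pos_of_pos hR _
    have h6 := mul_le_mul_of_nonneg_left key h5.le
    have h7 : ‖fderiv ℝ u x0‖ = 4 * (R ^ (-α - 1) * (R ^ α * (R / 4) * ‖fderiv ℝ u x0‖)) := by
      rw [← mul_assoc (R ^ (-α - 1)), h3]
      ring
    rw [h7]
    linarith
  · intro y hy
    have h1 := hu _ (hin y hy)
    rw [abs_of_nonneg (mul_nonneg (Real.rpow_nonneg hR.le _) h1.1), ← hscale]
    exact mul_le_mul_of_nonneg_left h1.2 (Real.rpow_nonneg hR.le _)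
  · intro y hy
    have h1 := hv _ (hin y hy)
    have h2 := ha _ (hsub (hin y hy))
    rw [lap_affine, ← abs_neg, ← mul_neg, he _ (hsub (hin y hy))]
    have h3 : 0 ≤ v (x0 + (R / 4) • y) ^ p := Real.rpow_nonneg h1.1 _
    have h4 : 0 ≤ R ^ α * (R / 4) ^ 2 := by positivity
    rw [abs_of_nonneg (mul_nonneg h4 (mul_nonneg h2.1 h3))]
    have h5 : v (x0 + (R / 4) • y) ^ p ≤ (K ^ β * (R / 2) ^ (-β)) ^ p :=
      Real.rpow_le_rpow h1.1 h1.2 hp.le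
    have h6 : (K ^ β * (R / 2) ^ (-β)) ^ p = K ^ (α + 2) * (R / 2) ^ (-(α + 2)) := by
      rw [Real.mul_rpow (by positivity) (by positivity), ← Real.rpow_mul hK.le,
        ← Real.rpow_mul (by positivity), hαβ]
      congr 2
      ring
    have h7 : R ^ α * (R / 4) ^ 2 ≤ R ^ (α + 2) := by
      rw [Real.rpow_add hR, Real.rpow_two]
      have : 0 < R ^ α := Real.rpow_pos_of_pos hR _
      have h8 : (R / 4) ^ 2 ≤ R ^ 2 := by nlinarith
      exact mul_le_mul_of_nonneg_left h8 this.le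
    calc R ^ α * (R / 4) ^ 2 * (a (x0 + (R / 4) • y) * v (x0 + (R / 4) • y) ^ p)
        ≤ R ^ (α + 2) * (Λ * (K ^ (α + 2) * (R / 2) ^ (-(α + 2)))) := by
          refine mul_le_mul h7 (mul_le_mul h2.2 (h5.trans h6.le) h3 hΛ) (mul_nonneg h2.1 h3)
            (by positivity)
      _ = Λ * (2 * K) ^ (α + 2) := by
          rw [← hscale (α + 2)]
          ring

/-- **universal local bound** -/
theorem local_bound {n : ℕ} (hn : 2 ≤ n) {p q : ℝ} (hp : 0 < p) (hq : 0 < q) (hpq : 1 < p * q)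
    (hsub : (n : ℝ) - 2 < n / (p + 1) + n / (q + 1)) (Λ : ℝ) (hΛ : 1 ≤ Λ) :
    ∃ C, 0 < C ∧ ∀ (x0 : Eu n) (R : ℝ), 0 < R → ∀ a b u v : Eu n → ℝ,
      ContDiffOn ℝ 2 u (ball x0 R) → ContDiffOn ℝ 2 v (ball x0 R) →
      (∀ x ∈ ball x0 R, 0 ≤ u x ∧ 0 ≤ v x) →
      (∀ x ∈ ball x0 R, Λ⁻¹ ≤ a x ∧ a x ≤ Λ ∧ Λ⁻¹ ≤ b x ∧ b x ≤ Λ) →
      (∀ x ∈ ball x0 R, ∀ y ∈ ball x0 R,
        |a x - a y| ≤ Λ * (‖x - y‖ / R) ∧ |b x - b y| ≤ Λ * (‖x - y‖ / R)) →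
      (∀ x ∈ ball x0 R, -(Laplacian.laplacian u x) = a x * v x ^ p ∧
        -(Laplacian.laplacian v x) = b x * u x ^ q) →
      u x0 ≤ C * R ^ (-(2 * (p + 1) / (p * q - 1))) ∧
      v x0 ≤ C * R ^ (-(2 * (q + 1) / (p * q - 1))) ∧
      ‖fderiv ℝ u x0‖ ≤ C * R ^ (-(2 * (p + 1) / (p * q - 1)) - 1) ∧
      ‖fderiv ℝ v x0‖ ≤ C * R ^ (-(2 * (q + 1) / (p * q - 1)) - 1) := by
  have hΛ0 : 0 < Λ := by linarith
  have hΛi : 0 < Λ⁻¹ := inv_pos.2 hΛ0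
  have hpq0 : 0 < p * q - 1 := by linarith
  obtain ⟨e1, e2⟩ := expo hpq
  have hα : 0 < 2 * (p + 1) / (p * q - 1) := by positivity
  have hβ : 0 < 2 * (q + 1) / (p * q - 1) := by positivity
  obtain ⟨K, hK, hN⟩ := nbound hn hp hq hpq hsub hΛ0 hα hβ e1 e2
  obtain ⟨C0, hC0, hg⟩ := grad_comp n
  generalize hαd : 2 * (p + 1) / (p * q - 1) = α at *
  generalize hβd : 2 * (q + 1) / (p * q - 1) = β at *
  set G1 : ℝ := 4 * (C0 * ((2 * K) ^ α + Λ * (2 * K) ^ (α + 2))) with hG1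
  set G2 : ℝ := 4 * (C0 * ((2 * K) ^ β + Λ * (2 * K) ^ (β + 2))) with hG2
  have hG10 : 0 ≤ G1 := by positivity
  have hG20 : 0 ≤ G2 := by positivity
  have hKα : 0 < K ^ α := Real.rpow_pos_of_pos hK _
  have hKβ : 0 < K ^ β := Real.rpow_pos_of_pos hK _
  refine ⟨K ^ α + K ^ β + G1 + G2, by positivity, fun x0 R hR a b u v cu cv nuv bab lab euv => ?_⟩
  have h : LocSol p q Λ R x0 a b u v :=
    ⟨cu, cv, fun x hx => (nuv x hx).1, fun x hx => (nuv x hx).2,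
      fun x hx => ⟨(bab x hx).1, (bab x hx).2.1⟩, fun x hx => (bab x hx).2.2,
      fun x hx y hy => (lab x hx y hy).1, fun x hx y hy => (lab x hx y hy).2,
      fun x hx => (euv x hx).1, fun x hx => (euv x hx).2⟩
  have hcomp : ∀ {x : Eu n} {R' : ℝ}, 0 < R' → LocSol p q Λ R' x a b u v →
      (0 ≤ u x ∧ u x ≤ K ^ α * R' ^ (-α)) ∧ (0 ≤ v x ∧ v x ≤ K ^ β * R' ^ (-β)) := by
    intro x R' hR' hx
    have h1 := hN x R' hR' a b u v hx
    have hxm : x ∈ ball x R' := mem_ball_self hR'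
    have h2 := Real.rpow_nonneg (hx.nu x hxm) (1 / α)
    have h3 := Real.rpow_nonneg (hx.nv x hxm) (1 / β)
    refine ⟨⟨hx.nu x hxm, rpow_bound hα (hx.nu x hxm) hK hR' ?_⟩,
      ⟨hx.nv x hxm, rpow_bound hβ (hx.nv x hxm) hK hR' ?_⟩⟩
    · nlinarith
    · nlinarith
  have hx0 := hcomp hR h
  have hhalf : ∀ x ∈ ball x0 (R / 2), (0 ≤ u x ∧ u x ≤ K ^ α * (R / 2) ^ (-α)) ∧
      (0 ≤ v x ∧ v x ≤ K ^ β * (R / 2) ^ (-β)) := fun x hx =>
    hcomp (by positivity) (h.restrict hΛ0 hR hx)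
  have g1 := hg hp e1 hK hR cu (fun x hx => (hhalf x hx).1) (fun x hx => (hhalf x hx).2)
    (fun x hx => ⟨hΛi.le.trans (h.ba x hx).1, (h.ba x hx).2⟩) h.eu
  have g2 := hg hq e2 hK hR cv (fun x hx => (hhalf x hx).2) (fun x hx => (hhalf x hx).1)
    (fun x hx => ⟨hΛi.le.trans (h.bb x hx).1, (h.bb x hx).2⟩) h.ev
  have up : ∀ {c γ s : ℝ}, s ≤ c * R ^ γ → c ≤ K ^ α + K ^ β + G1 + G2 →
      s ≤ (K ^ α + K ^ β + G1 + G2) * R ^ γ := fun h1 h2 =>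
    h1.trans (mul_le_mul_of_nonneg_right h2 (Real.rpow_nonneg hR.le _))
  refine ⟨up hx0.1.2 (by linarith), up hx0.2.2 (by linarith), up g1 (by linarith),
    up g2 (by linarith)⟩

end Vale.Agent.P100.H327
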