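import Vale.Agent.P100.H327.Lip

set_option autoImplicit false

/-!
P100: a continuous function with the potential representation of a locally Lipschitz `F` is `C²`
and solves `-Δ U = F`.
-/

noncomputable section

open MeasureTheory Metric Set Filter Topology
open scoped ContDiff

namespace Vale.Agent.P100.H327

variable {n : ℕ}

section Gen

variable {G : Type*} [NormedAddCommGroup G] [NormedSpace ℝ G]

lemma av_continuous_right {t : ℝ} {F : Eu n → ℝ} {K : Eu n → G} (hF : Continuous F) (hK : Ker K) :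
    Continuous (Av t F K) :=
  (av_continuous hF hK).comp (continuous_const.prodMk continuous_id)

lemma av_continuous_left {F : Eu n → ℝ} {K : Eu n → G} (hF : Continuous F) (hK : Ker K)
    (x : Eu n) : Continuous fun t : ℝ => Av t F K x :=
  (av_continuous hF hK).comp (continuous_id.prodMk continuous_const)

lemma fderiv_av {t : ℝ} (ht : 0 < t) {F : Eu n → ℝ} {K : Eu n → G} (hF : Continuous F)
    (hK : Ker K) : fderiv ℝ (Av t F K) = fun x => -(t⁻¹ • Av t F (fderiv ℝ K) x) := by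
  funext x
  exact (av_hasFDerivAt ht hF hK x).fderiv

lemma av_contDiff_one {t : ℝ} (ht : 0 < t) {F : Eu n → ℝ} {K : Eu n → G} (hF : Continuous F)
    (hK : Ker K) : ContDiff ℝ 1 (Av t F K) := by
  rw [contDiff_one_iff_fderiv]
  refine ⟨fun x => (av_hasFDerivAt ht hF hK x).differentiableAt, ?_⟩
  rw [fderiv_av ht hF hK]
  have h1 : Continuous (Av t F (fderiv ℝ K)) := av_continuous_right hF hK.fderiv
  exact (h1.const_smul t⁻¹).neg

lemma inv_smul_contOn {F : Eu n → ℝ} {K : Eu n → G} (hF : Continuous F) (hK : Ker K) (y : Eu n) :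
    ContinuousOn (fun t : ℝ => t⁻¹ • Av t F K y) (Ioc 0 1) := by
  have h1 : ContinuousOn (fun t : ℝ => t⁻¹) (Ioc 0 1) := continuousOn_id.inv₀ fun t ht => ht.1.ne'
  exact h1.smul (av_continuous_left hF hK y).continuousOn

lemma inv_smul_cont {t : ℝ} {F : Eu n → ℝ} {K : Eu n → G} (hF : Continuous F) (hK : Ker K) :
    Continuous fun y => t⁻¹ • Av t F K y := by
  have h1 : Continuous (Av t F K) := av_continuous_right hF hK
  exact h1.const_smul t⁻¹

lemma inv_smul_norm {t L I : ℝ} (ht : 0 < t) {v : G} (h : ‖v‖ ≤ L * t * I) :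
    ‖t⁻¹ • v‖ ≤ L * I := by
  rw [norm_smul, norm_inv, Real.norm_of_nonneg ht.le, inv_mul_le_iff₀ ht]
  refine h.trans (le_of_eq ?_)
  ring

/-- differentiation of a parameter integral over `(0, 1]` -/
lemma param_deriv {g : ℝ → Eu n → G} {g' : ℝ → Eu n → (Eu n →L[ℝ] G)} (x : Eu n) {B B' : ℝ}
    (hm : ∀ y, ContinuousOn (fun t => g t y) (Ioc 0 1))
    (hm' : ContinuousOn (fun t => g' t x) (Ioc 0 1))
    (hb : ∀ t ∈ Ioc (0 : ℝ) 1, ‖g t x‖ ≤ B)
    (hb' : ∀ t ∈ Ioc (0 : ℝ) 1, ∀ y ∈ ball x 1, ‖g' t y‖ ≤ B')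
    (hd : ∀ t ∈ Ioc (0 : ℝ) 1, ∀ y, HasFDerivAt (g t) (g' t y) y) :
    HasFDerivAt (fun y => ∫ t in Ioc (0 : ℝ) 1, g t y) (∫ t in Ioc (0 : ℝ) 1, g' t x) x := by
  have hS : SecondCountableTopologyEither ℝ (Eu n →L[ℝ] G) :=
    secondCountableTopologyEither_of_left _ _
  refine hasFDerivAt_integral_of_dominated_of_fderiv_le (𝕜 := ℝ) (s := ball x 1)
    (bound := fun _ => B') (F := fun y t => g t y) (F' := fun y t => g' t y)
    (ball_mem_nhds x one_pos) ?_ ?_ ?_ ?_ ?_ ?_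
  · exact Eventually.of_forall fun y => (hm y).aestronglyMeasurable measurableSet_Ioc
  · refine IntegrableOn.of_bound (by simp) ((hm x).aestronglyMeasurable measurableSet_Ioc) B ?_
    exact (ae_restrict_iff' measurableSet_Ioc).2 (Eventually.of_forall fun t ht => hb t ht)
  · exact hm'.aestronglyMeasurable measurableSet_Ioc
  · exact (ae_restrict_iff' measurableSet_Ioc).2 (Eventually.of_forall fun t ht => hb' t ht)
  · exact integrableOn_const (by simp)
  · exact (ae_restrict_iff' measurableSet_Ioc).2 (Eventually.of_forall fun t ht y _ => hd t ht y)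

lemma param_cont {g : ℝ → Eu n → G} (x : Eu n) {B : ℝ}
    (hm : ∀ y, ContinuousOn (fun t => g t y) (Ioc 0 1))
    (hb : ∀ t ∈ Ioc (0 : ℝ) 1, ∀ y ∈ ball x 1, ‖g t y‖ ≤ B)
    (hc : ∀ t ∈ Ioc (0 : ℝ) 1, Continuous (g t)) :
    ContinuousAt (fun y => ∫ t in Ioc (0 : ℝ) 1, g t y) x := by
  refine continuousAt_of_dominated (bound := fun _ => B) (F := fun y t => g t y) ?_ ?_ ?_ ?_
  · exact Eventually.of_forall fun y => (hm y).aestronglyMeasurable measurableSet_Ioc
  · filter_upwards [ball_mem_nhds x one_pos] with y hy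
    exact (ae_restrict_iff' measurableSet_Ioc).2 (Eventually.of_forall fun t ht => hb t ht y hy)
  · exact integrableOn_const (by simp)
  · exact (ae_restrict_iff' measurableSet_Ioc).2
      (Eventually.of_forall fun t ht => (hc t ht).continuousAt)

end Gen

lemma av_contDiff_two {t : ℝ} (ht : 0 < t) {F : Eu n → ℝ} {K : Eu n → ℝ} (hF : Continuous F)
    (hK : Ker K) : ContDiff ℝ 2 (Av t F K) := by
  rw [show (2 : WithTop ℕ∞) = 1 + 1 by norm_num, contDiff_succ_iff_fderiv]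
  refine ⟨fun x => (av_hasFDerivAt ht hF hK x).differentiableAt, by simp, ?_⟩
  rw [fderiv_av ht hF hK]
  have h1 : ContDiff ℝ 1 (Av t F (fderiv ℝ K)) := av_contDiff_one ht hF hK.fderiv
  exact (h1.const_smul t⁻¹).neg

/-- local Lipschitz condition -/
def LocLip (F : Eu n → ℝ) : Prop :=
  ∀ ρ : ℝ, ∃ L : ℝ, 0 ≤ L ∧ ∀ x y : Eu n, ‖x‖ ≤ ρ → ‖y‖ ≤ ρ → |F x - F y| ≤ L * ‖x - y‖

/-- the potential -/
def Pot (F : Eu n → ℝ) (x : Eu n) : ℝ := ∫ t in Ioc (0 : ℝ) 1, t * Av t F Ps x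

lemma norm_le_of_closedBall {x y z : Eu n} {t : ℝ} (hy : y ∈ ball x 1) (ht : t ≤ 1)
    (hz : z ∈ closedBall y t) : ‖z‖ ≤ ‖x‖ + 2 := by
  have h1 : ‖y - x‖ < 1 := by simpa [dist_eq_norm] using hy
  have h2 : ‖z - y‖ ≤ t := by simpa [dist_eq_norm] using hz
  have h3 := norm_add_le (z - y) (y - x)
  have h4 := norm_add_le ((z - y) + (y - x)) x
  have h5 : (z - y) + (y - x) + x = z := by abel
  rw [h5] at h4
  linarith

lemma pot_deriv {F : Eu n → ℝ} (hF : Continuous F) (x : Eu n) :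
    HasFDerivAt (Pot F) (∫ t in Ioc (0 : ℝ) 1, -Av t F (fderiv ℝ Ps) x) x := by
  obtain ⟨B, hB⟩ := (isCompact_closedBall (0 : Eu n) (‖x‖ + 2)).exists_bound_of_continuousOn
    hF.continuousOn
  have hBx : ∀ t ∈ Ioc (0 : ℝ) 1, ∀ y ∈ ball x 1, ∀ z ∈ closedBall y t, |F z| ≤ B := by
    intro t ht y hy z hz
    have := norm_le_of_closedBall hy ht.2 hz
    exact hB z (by simpa using this)
  refine param_deriv (g := fun t y => t * Av t F Ps y) (g' := fun t y => -Av t F (fderiv ℝ Ps) y) x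
    (B := B * ∫ z : Eu n, ‖Ps z‖) (B' := B * ∫ z : Eu n, ‖fderiv ℝ Ps z‖) ?_ ?_ ?_ ?_ ?_
  · intro y
    exact (continuous_id.mul (av_continuous_left hF kerPs y)).continuousOn
  · exact (av_continuous_left hF kerPs.fderiv x).neg.continuousOn
  · intro t ht
    have h1 := av_norm_le (K := Ps) ht.1.le kerPs (hBx t ht x (mem_ball_self one_pos))
    rw [norm_mul, Real.norm_of_nonneg ht.1.le]
    have h2 : 0 ≤ ‖Av t F Ps x‖ := norm_nonneg _
    nlinarith [ht.1, ht.2]
  · intro t ht y hy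
    rw [norm_neg]
    exact av_norm_le ht.1.le kerPs.fderiv (hBx t ht y hy)
  · intro t ht y
    have h1 := (av_hasFDerivAt ht.1 hF kerPs y).const_smul t
    refine h1.congr_fderiv ?_
    rw [smul_neg, smul_smul, mul_inv_cancel₀ ht.1.ne', one_smul]

lemma pot_deriv2 {F : Eu n → ℝ} (hF : Continuous F) (hL : LocLip F) (x : Eu n) :
    HasFDerivAt (fun x => ∫ t in Ioc (0 : ℝ) 1, -Av t F (fderiv ℝ Ps) x)
      (∫ t in Ioc (0 : ℝ) 1, t⁻¹ • Av t F (fderiv ℝ (fderiv ℝ Ps)) x) x ∧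
    ContinuousAt (fun x => ∫ t in Ioc (0 : ℝ) 1, t⁻¹ • Av t F (fderiv ℝ (fderiv ℝ Ps)) x) x := by
  obtain ⟨B, hB⟩ := (isCompact_closedBall (0 : Eu n) (‖x‖ + 2)).exists_bound_of_continuousOn
    hF.continuousOn
  have hBx : ∀ t ∈ Ioc (0 : ℝ) 1, ∀ y ∈ ball x 1, ∀ z ∈ closedBall y t, |F z| ≤ B := by
    intro t ht y hy z hz
    have := norm_le_of_closedBall hy ht.2 hz
    exact hB z (by simpa using this)
  obtain ⟨L, hL0, hLb⟩ := hL (‖x‖ + 2)
  have hLx : ∀ t ∈ Ioc (0 : ℝ) 1, ∀ y ∈ ball x 1, ∀ z ∈ closedBall y t, |F z - F y| ≤ L * t := by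
    intro t ht y hy z hz
    have h1 := norm_le_of_closedBall hy ht.2 hz
    have h2 := norm_le_of_closedBall hy ht.2 (mem_closedBall_self ht.1.le)
    have h3 : ‖z - y‖ ≤ t := by simpa [dist_eq_norm] using hz
    exact (hLb z y h1 h2).trans (mul_le_mul_of_nonneg_left h3 hL0)
  have hm2 : ∀ y, ContinuousOn (fun t : ℝ => t⁻¹ • Av t F (fderiv ℝ (fderiv ℝ Ps)) y) (Ioc 0 1) :=
    fun y => inv_smul_contOn hF kerPs.fderiv.fderiv y
  have hb2 : ∀ t ∈ Ioc (0 : ℝ) 1, ∀ y ∈ ball x 1,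
      ‖t⁻¹ • Av t F (fderiv ℝ (fderiv ℝ Ps)) y‖ ≤ L * ∫ z : Eu n, ‖fderiv ℝ (fderiv ℝ Ps) z‖ := by
    intro t ht y hy
    have h1 := av_fderiv_le ht.1.le hF (kerPs (n := n)).fderiv (hLx t ht y hy)
    exact inv_smul_norm ht.1 h1
  constructor
  · refine param_deriv (g := fun t y => -Av t F (fderiv ℝ Ps) y)
      (g' := fun t y => t⁻¹ • Av t F (fderiv ℝ (fderiv ℝ Ps)) y) x
      (B := B * ∫ z : Eu n, ‖fderiv ℝ Ps z‖) ?_ (hm2 x) ?_ hb2 ?_
    · intro y
      exact (av_continuous_left hF kerPs.fderiv y).neg.continuousOn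
    · intro t ht
      rw [norm_neg]
      exact av_norm_le ht.1.le kerPs.fderiv (hBx t ht x (mem_ball_self one_pos))
    · intro t ht y
      have h1 := (av_hasFDerivAt ht.1 hF kerPs.fderiv y).neg
      rwa [neg_neg] at h1
  · exact param_cont x hm2 hb2 fun t _ => inv_smul_cont hF kerPs.fderiv.fderiv

lemma pot_contDiff {F : Eu n → ℝ} (hF : Continuous F) (hL : LocLip F) : ContDiff ℝ 2 (Pot F) := by
  rw [show (2 : WithTop ℕ∞) = 1 + 1 by norm_num, contDiff_succ_iff_fderiv]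
  refine ⟨fun x => (pot_deriv hF x).differentiableAt, by simp, ?_⟩
  have h1 : fderiv ℝ (Pot F) = fun x => ∫ t in Ioc (0 : ℝ) 1, -Av t F (fderiv ℝ Ps) x := by
    funext x
    exact (pot_deriv hF x).fderiv
  rw [h1, contDiff_one_iff_fderiv]
  refine ⟨fun x => (pot_deriv2 hF hL x).1.differentiableAt, ?_⟩
  have h2 : fderiv ℝ (fun x => ∫ t in Ioc (0 : ℝ) 1, -Av t F (fderiv ℝ Ps) x) =
      fun x => ∫ t in Ioc (0 : ℝ) 1, t⁻¹ • Av t F (fderiv ℝ (fderiv ℝ Ps)) x := by
    funext x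
    exact (pot_deriv2 hF hL x).1.fderiv
  rw [h2]
  exact continuous_iff_continuousAt.2 fun x => (pot_deriv2 hF hL x).2

lemma int_Ps_pos : 0 < ∫ z : Eu n, Ps z := by
  refine (integral_pos_iff_support_of_nonneg (fun z => Ps_nonneg z) kerPs.integrable).2 ?_
  refine lt_of_lt_of_le (measure_ball_pos volume (0 : Eu n) one_pos) (measure_mono fun z hz => ?_)
  exact (Ps_pos (by simpa using hz)).ne'

/-- the potential determines the function -/
lemma zero_of_pot {g : Eu n → ℝ} (hg : Continuous g) (x : Eu n)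
    (h : ∀ r, 0 ≤ r → ∫ t in (0 : ℝ)..r, t * Av t g Ps x = 0) : g x = 0 := by
  have hav : Continuous fun t : ℝ => t * Av t g Ps x :=
    continuous_id.mul (av_continuous_left hg kerPs x)
  have h4 : ∀ r : ℝ, 0 < r → Av r g Ps x = 0 := by
    intro r hr
    have hd := (hav.integral_hasStrictDerivAt 0 r).hasDerivAt
    have hz : (fun u => ∫ t in (0 : ℝ)..u, t * Av t g Ps x) =ᶠ[𝓝 r] fun _ => (0 : ℝ) := by
      filter_upwards [lt_mem_nhds hr] with u hu using h u hu.le
    have h5 := hd.unique ((hasDerivAt_const r (0 : ℝ)).congr_of_eventuallyEq hz)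
    rcases mul_eq_zero.1 h5 with h6 | h6
    · exact absurd h6 hr.ne'
    · exact h6
  have h5 : Av 0 g Ps x = 0 := by
    have hcl : IsClosed {t : ℝ | Av t g Ps x = 0} :=
      isClosed_eq (av_continuous_left hg kerPs x) continuous_const
    have h6 : (0 : ℝ) ∈ closure (Ioi (0 : ℝ)) := by simp
    exact hcl.closure_subset_iff.2 (fun t ht => h4 t ht) h6
  have h6 : Av 0 g Ps x = g x * ∫ z : Eu n, Ps z := by
    unfold Av
    simp only [zero_smul, add_zero, smul_eq_mul]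
    rw [integral_const_mul]
  rw [h6] at h5
  rcases mul_eq_zero.1 h5 with h7 | h7
  · exact h7
  · exact absurd h7 int_Ps_pos.ne'

/-- regularity -/
theorem reg {U F : Eu n → ℝ} (hU : Continuous U) (hF : Continuous F) (hL : LocLip F)
    (hrep : ∀ x r, 0 ≤ r → c0 n * U x = Av r U Ph x + ∫ t in (0 : ℝ)..r, t * Av t F Ps x) :
    ContDiff ℝ 2 U ∧ ∀ x, -Laplacian.laplacian U x = F x := by
  have hc := c0_pos (n := n)
  have hU2 : ContDiff ℝ 2 U := by
    have h1 : U = fun x => (c0 n)⁻¹ * (Av 1 U Ph x + Pot F x) := by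
      funext x
      have h2 := hrep x 1 zero_le_one
      rw [intervalIntegral.integral_of_le zero_le_one] at h2
      unfold Pot
      rw [← h2, ← mul_assoc, inv_mul_cancel₀ hc.ne', one_mul]
    rw [h1]
    exact contDiff_const.mul ((av_contDiff_two one_pos hU kerPh).add (pot_contDiff hF hL))
  refine ⟨hU2, fun x => ?_⟩
  obtain ⟨L, hLd⟩ : ∃ L : Eu n → ℝ, L = fun y => -Laplacian.laplacian U y := ⟨_, rfl⟩
  have hLc : Continuous L := by rw [hLd]; exact (lap_continuous hU2).neg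
  have hgc : Continuous fun y => L y - F y := hLc.sub hF
  have hav : ∀ G : Eu n → ℝ, Continuous G → Continuous fun t : ℝ => t * Av t G Ps x :=
    fun G hG => continuous_id.mul (av_continuous_left hG kerPs x)
  have h3 : ∀ r, 0 ≤ r → ∫ t in (0 : ℝ)..r, t * Av t (fun y => L y - F y) Ps x = 0 := by
    intro r hr
    have e1 := rep hU2 x r
    rw [← hLd] at e1
    have e2 := hrep x r hr
    have e3 : ∀ t, t * Av t (fun y => L y - F y) Ps x = t * Av t L Ps x - t * Av t F Ps x := by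
      intro t
      rw [← av_sub (av_integrable hLc kerPs x) (av_integrable hF kerPs x)]
      ring
    simp_rw [e3]
    rw [intervalIntegral.integral_sub ((hav L hLc).intervalIntegrable 0 r)
      ((hav F hF).intervalIntegrable 0 r)]
    linarith
  have h4 := zero_of_pot hgc x h3
  simp only [hLd] at h4
  linarith

end Vale.Agent.P100.H327
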