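import Vale.Agent.P100.Bdl.B1
import Vale.Agent.P100.H327.Ker

set_option autoImplicit false

/-!
P100: the representation `c₀ w(x) = Av r w Ph x + ∫_0^r t Av t (-Δ w) Ps x dt`, the Lipschitz
estimate, and the localisation of `C²` functions.
-/

noncomputable section

open MeasureTheory Metric Set Filter Topology
open scoped ContDiff

namespace Vale.Agent.P100.H327

variable {n : ℕ}

open Vale.Agent.P100.RM.Gr (D eb ibp lap_eq)

lemma lap_continuous {w : Eu n → ℝ} (hw : ContDiff ℝ 2 w) :
    Continuous fun y => Laplacian.laplacian w y :=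
  Vale.Agent.P100.RM.Gr.lap_continuous hw

lemma D_Ps (i : Fin n) (z : Eu n) : D (eb i) Ps z = -(Ph z * z i) := by
  unfold D
  rw [(hasFDerivAt_Ps z).fderiv]
  have : inner ℝ z (eb i) = z i := Vale.Agent.P100.RM.Gr.inner_eb i z
  simp [this]

lemma fderiv_eq_sum {w : Eu n → ℝ} (y z : Eu n) :
    fderiv ℝ w y z = ∑ i, z i * D (eb i) w y := by
  have h : z = ∑ i, z i • eb i := by
    have := (EuclideanSpace.basisFun (Fin n) ℝ).sum_repr z
    simpa [eb] using this.symm
  conv_lhs => rw [h]
  rw [map_sum]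
  refine Finset.sum_congr rfl fun i _ => ?_
  rw [map_smul, smul_eq_mul]
  rfl

lemma D_comp_affine {g : Eu n → ℝ} (hg : Differentiable ℝ g) (v x z : Eu n) (t : ℝ) :
    D v (fun z => g (x + t • z)) z = t * D v g (x + t • z) := by
  unfold D
  have h1 : HasFDerivAt (fun z : Eu n => x + t • z) (t • ContinuousLinearMap.id ℝ (Eu n)) z :=
    ((hasFDerivAt_id z).const_smul t).const_add x
  have h2 := ((hg (x + t • z)).hasFDerivAt.comp z h1).fderiv
  have h3 : (fun z => g (x + t • z)) = g ∘ fun z : Eu n => x + t • z := rfl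
  rw [h3, h2]
  simp

/-- integration by parts -/
lemma radial_ibp {w : Eu n → ℝ} (hw : ContDiff ℝ 2 w) (x : Eu n) (t : ℝ) :
    ∫ z, fderiv ℝ w (x + t • z) z * Ph z =
      t * Av t (fun y => Laplacian.laplacian w y) Ps x := by
  have hG : ∀ i, ContDiff ℝ 1 fun z => D (eb i) w (x + t • z) := fun i =>
    (Vale.Agent.P100.RM.Gr.D_contDiff (eb i) hw).comp (by fun_prop)
  have hP : ContDiff ℝ 1 (Ps (n := n)) := kerPs.smooth.of_le (by norm_cast)
  have h1 : ∀ i, ∫ z, Ps z * D (eb i) (fun z => D (eb i) w (x + t • z)) z =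
      -∫ z, D (eb i) Ps z * D (eb i) w (x + t • z) := fun i =>
    ibp (eb i) hP (hG i) kerPs.compact
  have hint1 : ∀ i, Integrable fun z => D (eb i) Ps z * D (eb i) w (x + t • z) := by
    intro i
    refine Continuous.integrable_of_hasCompactSupport ?_ ?_
    · exact (Vale.Agent.P100.RM.Gr.D_continuous (eb i) hP).mul (hG i).continuous
    · exact (Vale.Agent.P100.RM.Gr.D_hasCompactSupport (eb i) kerPs.compact).mul_right
  have hint2 : ∀ i, Integrable fun z => Ps z * D (eb i) (fun z => D (eb i) w (x + t • z)) z := by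
    intro i
    refine Continuous.integrable_of_hasCompactSupport ?_ ?_
    · exact hP.continuous.mul (Vale.Agent.P100.RM.Gr.D_continuous (eb i) (hG i))
    · exact kerPs.compact.mul_right
  have h2 : ∀ z, fderiv ℝ w (x + t • z) z * Ph z =
      -∑ i, D (eb i) Ps z * D (eb i) w (x + t • z) := by
    intro z
    rw [fderiv_eq_sum, Finset.sum_mul, ← Finset.sum_neg_distrib]
    refine Finset.sum_congr rfl fun i _ => ?_
    rw [D_Ps]
    ring
  have h3 : ∀ z, ∑ i, Ps z * D (eb i) (fun z => D (eb i) w (x + t • z)) z =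
      t * (Laplacian.laplacian w (x + t • z) • Ps z) := by
    intro z
    rw [lap_eq hw, smul_eq_mul, Finset.sum_mul, Finset.mul_sum]
    refine Finset.sum_congr rfl fun i _ => ?_
    rw [D_comp_affine ((Vale.Agent.P100.RM.Gr.D_contDiff (eb i) hw).differentiable (by norm_num))]
    ring
  calc ∫ z, fderiv ℝ w (x + t • z) z * Ph z
      = ∫ z, -∑ i, D (eb i) Ps z * D (eb i) w (x + t • z) := by simp_rw [h2]
    _ = ∑ i, -∫ z, D (eb i) Ps z * D (eb i) w (x + t • z) := by
        rw [integral_neg, integral_finsetSum _ fun i _ => hint1 i, Finset.sum_neg_distrib]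
    _ = ∑ i, ∫ z, Ps z * D (eb i) (fun z => D (eb i) w (x + t • z)) z :=
        Finset.sum_congr rfl fun i _ => (h1 i).symm
    _ = ∫ z, t * (Laplacian.laplacian w (x + t • z) • Ps z) := by
        rw [← integral_finsetSum _ fun i _ => hint2 i]
        simp_rw [h3]
    _ = _ := by
        rw [integral_const_mul]
        rfl

lemma av_hasDerivAt {w : Eu n → ℝ} (hw : ContDiff ℝ 2 w) (x : Eu n) (t : ℝ) :
    HasDerivAt (fun t => Av t w Ph x) (t * Av t (fun y => Laplacian.laplacian w y) Ps x) t := by
  have hfd : Continuous (fderiv ℝ w) := hw.continuous_fderiv (by norm_num)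
  obtain ⟨B, hB⟩ := (isCompact_closedBall x (|t| + 1)).exists_bound_of_continuousOn
    hfd.continuousOn
  have key := hasDerivAt_integral_of_dominated_loc_of_deriv_le (𝕜 := ℝ) (μ := volume)
    (F := fun (s : ℝ) (z : Eu n) => w (x + s • z) • Ph z)
    (F' := fun (s : ℝ) (z : Eu n) => fderiv ℝ w (x + s • z) z * Ph z)
    (x₀ := t) (s := ball t 1) (bound := fun z => |B| * ‖Ph z‖)
    (ball_mem_nhds t one_pos) ?_ ?_ ?_ ?_ ?_ ?_
  · rw [← radial_ibp hw]
    exact key.2
  · refine Eventually.of_forall fun s => Continuous.aestronglyMeasurable ?_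
    exact (hw.continuous.comp (by fun_prop)).smul kerPh.cont
  · exact av_integrable hw.continuous kerPh x
  · refine Continuous.aestronglyMeasurable ?_
    have h1 : Continuous fun z : Eu n => fderiv ℝ w (x + t • z) := hfd.comp (by fun_prop)
    exact (h1.clm_apply continuous_id).mul kerPh.cont
  · refine Eventually.of_forall fun z s hs => ?_
    have hs' : |s - t| < 1 := by simpa [Real.dist_eq] using hs
    by_cases hz : ‖z‖ ≤ 1
    · rw [norm_mul]
      refine mul_le_mul_of_nonneg_right ?_ (norm_nonneg _)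
      have h1 : ‖fderiv ℝ w (x + s • z)‖ ≤ |B| := by
        refine (hB _ ?_).trans (le_abs_self B)
        rw [mem_closedBall, dist_eq_norm, add_sub_cancel_left, norm_smul, Real.norm_eq_abs]
        have h2 : |s| ≤ |t| + 1 := by
          have := abs_sub_abs_le_abs_sub s t
          linarith
        nlinarith [abs_nonneg s]
      calc ‖fderiv ℝ w (x + s • z) z‖ ≤ ‖fderiv ℝ w (x + s • z)‖ * ‖z‖ :=
            ContinuousLinearMap.le_opNorm _ _
        _ ≤ |B| * 1 := mul_le_mul h1 hz (norm_nonneg _) (abs_nonneg _)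
        _ = |B| := mul_one _
    · rw [kerPh.zero z (not_le.1 hz)]
      simp
  · exact kerPh.integrable.norm.const_mul _
  · refine Eventually.of_forall fun z s _ => ?_
    have h1 : HasDerivAt (fun s : ℝ => x + s • z) z s := by
      simpa using ((hasDerivAt_id s).smul_const z).const_add x
    have h2 := (hw.differentiable (by norm_num) (x + s • z)).hasFDerivAt.comp_hasDerivAt s h1
    simpa [smul_eq_mul] using h2.mul_const (Ph z)

/-- `c₀` -/
def c0 (n : ℕ) : ℝ := ∫ z : Eu n, Ph z

lemma c0_pos : 0 < c0 n := by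
  unfold c0
  refine (integral_pos_iff_support_of_nonneg (fun z => Ph_nonneg z) kerPh.integrable).2 ?_
  refine lt_of_lt_of_le (measure_ball_pos volume (0 : Eu n) one_pos) (measure_mono fun z hz => ?_)
  exact (Ph_pos (by simpa using hz)).ne'

/-- the representation -/
theorem rep {w : Eu n → ℝ} (hw : ContDiff ℝ 2 w) (x : Eu n) (r : ℝ) :
    c0 n * w x = Av r w Ph x +
      ∫ t in (0 : ℝ)..r, t * Av t (fun y => -Laplacian.laplacian w y) Ps x := by
  have h0 : Av 0 w Ph x = c0 n * w x := by
    unfold Av c0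
    simp only [zero_smul, add_zero, smul_eq_mul]
    rw [integral_const_mul, mul_comm]
  obtain ⟨L, hL⟩ : ∃ L : Eu n → ℝ, L = fun y => Laplacian.laplacian w y := ⟨_, rfl⟩
  have hLc : Continuous L := by rw [hL]; exact lap_continuous hw
  have hd : ∀ t ∈ uIcc 0 r, HasDerivAt (fun t => Av t w Ph x) (t * Av t L Ps x) t := by
    intro t _
    rw [hL]
    exact av_hasDerivAt hw x t
  have hav : Continuous fun t : ℝ => Av t L Ps x :=
    (av_continuous hLc kerPs).comp (continuous_id.prodMk continuous_const)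
  have hc : Continuous fun t : ℝ => t * Av t L Ps x := continuous_id.mul hav
  have hF := intervalIntegral.integral_eq_sub_of_hasDerivAt hd (hc.intervalIntegrable 0 r)
  have hneg : ∀ t, t * Av t (fun y => -Laplacian.laplacian w y) Ps x = -(t * Av t L Ps x) := by
    intro t
    rw [hL]
    unfold Av
    simp only [neg_smul]
    rw [integral_neg]
    ring
  simp_rw [hneg]
  rw [intervalIntegral.integral_neg, hF, h0]
  ring

end Vale.Agent.P100.H327
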